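import Mathlib

/-!
# Graded alphabets and their generating functions

An alphabet has letters `a` with a class `k a` in an additive monoid `M`, a degree `e a : ℤ` and a
parity.  Monomials are finitely supported multiplicities, odd letters occur at most once.
`gen S m : LaurentSeries ℚ` counts the monomials of class `m` by degree.
-/

set_option autoImplicit false

open Finset

namespace Vale.Agent.P066.H347

/-- A locally finite graded alphabet with classes in `M`. -/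
structure Alph (M : Type*) [AddCommMonoid M] (sz : M →+ ℕ) where
  A : Type
  k : A → M
  e : A → ℤ
  odd : A → Prop
  k_pos : ∀ a, 0 < sz (k a)
  fin : ∀ (n : ℕ) (N : ℤ), {a | sz (k a) ≤ n ∧ e a ≤ N}.Finite

namespace Alph

variable {M : Type*} [AddCommMonoid M] {sz : M →+ ℕ} (S T : Alph M sz)

/-- Monomials. -/
@[ext] structure Word : Type where
  /-- the multiplicities -/
  m : S.A →₀ ℕ
  odd_le : ∀ a, S.odd a → m a ≤ 1

/-- Class of a monomial. -/
def cls (μ : S.Word) : M := μ.m.sum fun a n => n • S.k a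

/-- Degree of a monomial. -/
def deg (μ : S.Word) : ℤ := μ.m.sum fun a n => (n : ℤ) * S.e a

theorem exists_bound (n : ℕ) : ∃ E : ℤ, E ≤ 0 ∧ ∀ a, sz (S.k a) ≤ n → E ≤ S.e a := by
  obtain ⟨E, hE⟩ := ((S.fin n 0).image S.e).bddBelow
  refine ⟨min E 0, min_le_right _ _, fun a ha => ?_⟩
  rcases le_total (S.e a) 0 with h | h
  · exact (min_le_left _ _).trans (hE ⟨a, ⟨ha, h⟩, rfl⟩)
  · exact (min_le_right _ _).trans h

theorem sz_cls (μ : S.Word) : sz (S.cls μ) = μ.m.sum fun a n => n * sz (S.k a) := by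
  unfold cls Finsupp.sum
  rw [map_sum]
  exact sum_congr rfl fun a _ => by rw [map_nsmul, smul_eq_mul]

theorem sum_le_sz (μ : S.Word) : (μ.m.sum fun _ n => n) ≤ sz (S.cls μ) := by
  rw [S.sz_cls]
  exact sum_le_sum fun a _ => Nat.le_mul_of_pos_right _ (S.k_pos a)

theorem sz_le_of_mem (μ : S.Word) {a : S.A} (ha : a ∈ μ.m.support) :
    sz (S.k a) ≤ sz (S.cls μ) := by
  rw [S.sz_cls]
  have h1 : μ.m a * sz (S.k a) ≤ μ.m.sum fun a n => n * sz (S.k a) :=
    single_le_sum (f := fun a => μ.m a * sz (S.k a)) (fun _ _ => Nat.zero_le _) ha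
  have h2 : 1 ≤ μ.m a := Nat.one_le_iff_ne_zero.2 (Finsupp.mem_support_iff.1 ha)
  calc sz (S.k a) = 1 * sz (S.k a) := (one_mul _).symm
    _ ≤ μ.m a * sz (S.k a) := Nat.mul_le_mul_right _ h2
    _ ≤ _ := h1

theorem deg_ge {μ : S.Word} {n : ℕ} (hn : sz (S.cls μ) ≤ n) {E : ℤ} (hE0 : E ≤ 0)
    (hE : ∀ a, sz (S.k a) ≤ n → E ≤ S.e a) : (n : ℤ) * E ≤ S.deg μ := by
  have h1 : ∀ a ∈ μ.m.support, (μ.m a : ℤ) * E ≤ (μ.m a : ℤ) * S.e a := fun a ha =>
    mul_le_mul_of_nonneg_left (hE a ((S.sz_le_of_mem μ ha).trans hn)) (Nat.cast_nonneg _)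
  have h2 : (∑ a ∈ μ.m.support, (μ.m a : ℤ)) ≤ n := by
    have := (S.sum_le_sz μ).trans hn
    unfold Finsupp.sum at this
    exact_mod_cast this
  calc (n : ℤ) * E ≤ (∑ a ∈ μ.m.support, (μ.m a : ℤ)) * E := mul_le_mul_of_nonpos_right h2 hE0
    _ = ∑ a ∈ μ.m.support, (μ.m a : ℤ) * E := sum_mul _ _ _
    _ ≤ _ := sum_le_sum h1

theorem e_le {μ : S.Word} {n : ℕ} (hn : sz (S.cls μ) ≤ n) {E : ℤ} (hE0 : E ≤ 0)
    (hE : ∀ a, sz (S.k a) ≤ n → E ≤ S.e a) {a : S.A} (ha : a ∈ μ.m.support) :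
    S.e a ≤ S.deg μ - n * E := by
  classical
  have h1 : ∀ b ∈ μ.m.support, (0 : ℤ) ≤ (μ.m b : ℤ) * (S.e b - E) := fun b hb =>
    mul_nonneg (Nat.cast_nonneg _)
      (sub_nonneg.2 (hE b ((S.sz_le_of_mem μ hb).trans hn)))
  have h2 : (∑ a ∈ μ.m.support, (μ.m a : ℤ)) ≤ n := by
    have := (S.sum_le_sz μ).trans hn
    unfold Finsupp.sum at this
    exact_mod_cast this
  have h3 : (μ.m a : ℤ) * (S.e a - E) ≤ ∑ b ∈ μ.m.support, (μ.m b : ℤ) * (S.e b - E) :=
    single_le_sum h1 ha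
  have h4 : ∑ b ∈ μ.m.support, (μ.m b : ℤ) * (S.e b - E) =
      S.deg μ - (∑ a ∈ μ.m.support, (μ.m a : ℤ)) * E := by
    unfold deg Finsupp.sum
    rw [sum_mul, ← sum_sub_distrib]
    exact sum_congr rfl fun _ _ => mul_sub _ _ _
  have h5 : (1 : ℤ) ≤ μ.m a := by
    exact_mod_cast Nat.one_le_iff_ne_zero.2 (Finsupp.mem_support_iff.1 ha)
  have h6 : (0 : ℤ) ≤ S.e a - E := sub_nonneg.2 (hE a ((S.sz_le_of_mem μ ha).trans hn))
  have h7 : (n : ℤ) * E ≤ (∑ a ∈ μ.m.support, (μ.m a : ℤ)) * E :=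
    mul_le_mul_of_nonpos_right h2 hE0
  nlinarith

theorem finite_le (n : ℕ) (N : ℤ) : {μ : S.Word | sz (S.cls μ) ≤ n ∧ S.deg μ ≤ N}.Finite := by
  classical
  obtain ⟨E, hE0, hE⟩ := S.exists_bound n
  set F : Finset S.A := (S.fin n (N - n * E)).toFinset with hF
  have h1 : (Set.Iic (Finsupp.indicator F fun _ _ => n : S.A →₀ ℕ)).Finite := Set.finite_Iic _
  refine Set.Finite.of_finite_image (f := Word.m) (h1.subset ?_) fun μ _ ν _ h => Word.ext h
  rintro _ ⟨μ, ⟨hn, hN⟩, rfl⟩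
  intro a
  by_cases ha : a ∈ μ.m.support
  · have h2 : a ∈ F := by
      rw [hF, Set.Finite.mem_toFinset]
      refine ⟨(S.sz_le_of_mem μ ha).trans hn, (S.e_le hn hE0 hE ha).trans ?_⟩
      linarith
    rw [Finsupp.indicator_of_mem h2]
    exact (single_le_sum (f := fun a => μ.m a) (fun _ _ => Nat.zero_le _) ha).trans
      ((S.sum_le_sz μ).trans hn)
  · rw [Finsupp.notMem_support_iff.1 ha]
    exact Nat.zero_le _

theorem finite_eq (m : M) (N : ℤ) : {μ : S.Word | S.cls μ = m ∧ S.deg μ = N}.Finite :=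
  (S.finite_le (sz m) N).subset fun _ h => ⟨h.1 ▸ le_rfl, h.2.le⟩

/-- Number of monomials of class `m` and degree `N`. -/
noncomputable def num (m : M) (N : ℤ) : ℕ := (S.finite_eq m N).toFinset.card

theorem num_eq_zero_of_lt {m : M} {E : ℤ} (hE0 : E ≤ 0)
    (hE : ∀ a, sz (S.k a) ≤ sz m → E ≤ S.e a) {N : ℤ} (hN : N < sz m * E) : S.num m N = 0 := by
  rw [num, card_eq_zero, Set.Finite.toFinset_eq_empty, Set.eq_empty_iff_forall_notMem]
  rintro μ ⟨h1, h2⟩
  have := S.deg_ge (μ := μ) (n := sz m) (by rw [h1]) hE0 hE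
  omega

/-- The generating function of the monomials of class `m`. -/
noncomputable def gen (m : M) : LaurentSeries ℚ where
  coeff N := S.num m N
  isPWO_support' := by
    obtain ⟨E, hE0, hE⟩ := S.exists_bound (sz m)
    refine (BddBelow.isWF ⟨sz m * E, ?_⟩).isPWO
    intro N hN
    by_contra h
    refine hN ?_
    show ((S.num m N : ℕ) : ℚ) = 0
    rw [S.num_eq_zero_of_lt hE0 hE (not_le.1 h), Nat.cast_zero]

@[simp] theorem coeff_gen (m : M) (N : ℤ) : (S.gen m).coeff N = S.num m N := rfl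

/-! ### Union of two alphabets -/

variable {S T}

/-- The disjoint union of two alphabets. -/
abbrev sum (S T : Alph M sz) : Alph M sz where
  A := S.A ⊕ T.A
  k := Sum.elim S.k T.k
  e := Sum.elim S.e T.e
  odd := Sum.elim S.odd T.odd
  k_pos := by rintro (a | a); exacts [S.k_pos a, T.k_pos a]
  fin n N := by
    refine (((S.fin n N).image Sum.inl).union ((T.fin n N).image Sum.inr)).subset ?_
    rintro (a | a) h
    exacts [Or.inl ⟨a, h, rfl⟩, Or.inr ⟨a, h, rfl⟩]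

/-- Monomials in a union are pairs of monomials. -/
noncomputable def wordSum (S T : Alph M sz) : (S.sum T).Word ≃ S.Word × T.Word where
  toFun μ := (⟨(Finsupp.sumFinsuppEquivProdFinsupp μ.m).1, fun a h => μ.odd_le (Sum.inl a) h⟩,
    ⟨(Finsupp.sumFinsuppEquivProdFinsupp μ.m).2, fun a h => μ.odd_le (Sum.inr a) h⟩)
  invFun p := ⟨p.1.m.sumElim p.2.m, by
    rintro (a | a) h
    · exact p.1.odd_le a h
    · exact p.2.odd_le a h⟩
  left_inv μ := by
    ext (a | a) <;> rfl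
  right_inv p := by
    refine Prod.ext ?_ ?_ <;> ext a <;> rfl

theorem m_wordSum_symm (p : S.Word × T.Word) :
    ((wordSum S T).symm p).m = p.1.m.sumElim p.2.m := rfl

theorem cls_wordSum_symm (p : S.Word × T.Word) :
    (S.sum T).cls ((wordSum S T).symm p) = S.cls p.1 + T.cls p.2 := by
  unfold cls
  rw [m_wordSum_symm, Finsupp.sum_sumElim]
  rfl

theorem deg_wordSum_symm (p : S.Word × T.Word) :
    (S.sum T).deg ((wordSum S T).symm p) = S.deg p.1 + T.deg p.2 := by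
  unfold deg
  rw [m_wordSum_symm, Finsupp.sum_sumElim]
  rfl

variable [HasAntidiagonal M] [DecidableEq M]

/-- The generating function of a union is the product of the generating functions. -/
theorem gen_sum (m : M) :
    (S.sum T).gen m = ∑ p ∈ antidiagonal m, S.gen p.1 * T.gen p.2 := by
  classical
  ext N
  rw [coeff_gen, HahnSeries.coeff_sum]
  have h0 : ∀ p ∈ antidiagonal m, (S.gen p.1 * T.gen p.2).coeff N =
      (((Finset.antidiagonal (S.gen p.1).isPWO_support (T.gen p.2).isPWO_support N).sum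
        fun q => S.num p.1 q.1 * T.num p.2 q.2 : ℕ) : ℚ) := fun p _ => by
    rw [HahnSeries.coeff_mul, Nat.cast_sum]
    exact sum_congr rfl fun q _ => by rw [coeff_gen, coeff_gen, Nat.cast_mul]
  rw [sum_congr rfl h0, ← Nat.cast_sum, Finset.sum_sigma']
  congr 1
  rw [num]
  set t := (antidiagonal m).sigma fun p =>
    Finset.antidiagonal (S.gen p.1).isPWO_support (T.gen p.2).isPWO_support N with ht
  let φ : (S.sum T).Word → (_ : M × M) × (ℤ × ℤ) := fun μ =>
    ⟨(S.cls (wordSum S T μ).1, T.cls (wordSum S T μ).2),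
      (S.deg (wordSum S T μ).1, T.deg (wordSum S T μ).2)⟩
  have hφ : ∀ μ ∈ ((S.sum T).finite_eq m N).toFinset, φ μ ∈ t := by
    intro μ hμ
    obtain ⟨p, rfl⟩ := (wordSum S T).symm.surjective μ
    rw [Set.Finite.mem_toFinset, Set.mem_ofPred_eq, cls_wordSum_symm, deg_wordSum_symm] at hμ
    rw [ht, mem_sigma]
    simp only [φ, Equiv.apply_symm_apply]
    refine ⟨HasAntidiagonal.mem_antidiagonal.2 hμ.1, ?_⟩
    rw [Finset.mem_antidiagonal]
    refine ⟨?_, ?_, hμ.2⟩
    · rw [HahnSeries.mem_support, coeff_gen, Nat.cast_ne_zero, num, ne_eq, card_eq_zero]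
      exact fun h => Finset.notMem_empty p.1 (h ▸ (Set.Finite.mem_toFinset _).2 ⟨rfl, rfl⟩)
    · rw [HahnSeries.mem_support, coeff_gen, Nat.cast_ne_zero, num, ne_eq, card_eq_zero]
      exact fun h => Finset.notMem_empty p.2 (h ▸ (Set.Finite.mem_toFinset _).2 ⟨rfl, rfl⟩)
  rw [Finset.card_eq_sum_card_fiberwise hφ]
  refine sum_congr rfl fun x hx => ?_
  rw [num, num, ← card_product]
  refine (Finset.card_bij (fun μ _ => wordSum S T μ) ?_ ?_ ?_)
  · intro μ hμ
    obtain ⟨h1, h2⟩ := mem_filter.1 hμ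
    rw [mem_product, Set.Finite.mem_toFinset, Set.Finite.mem_toFinset]
    subst h2
    exact ⟨⟨rfl, rfl⟩, ⟨rfl, rfl⟩⟩
  · intro μ _ ν _ h
    exact (wordSum S T).injective h
  · intro p hp
    rw [mem_product, Set.Finite.mem_toFinset, Set.Finite.mem_toFinset] at hp
    obtain ⟨⟨h1, h2⟩, ⟨h3, h4⟩⟩ := hp
    rw [ht, mem_sigma, Finset.mem_antidiagonal, HasAntidiagonal.mem_antidiagonal] at hx
    refine ⟨(wordSum S T).symm p, ?_, Equiv.apply_symm_apply _ _⟩
    rw [mem_filter, Set.Finite.mem_toFinset, Set.mem_ofPred_eq, cls_wordSum_symm,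
      deg_wordSum_symm, h1, h2, h3, h4]
    refine ⟨⟨hx.1, hx.2.2.2⟩, ?_⟩
    simp only [φ, Equiv.apply_symm_apply, h1, h2, h3, h4]

end Alph

end Vale.Agent.P066.H347
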