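import Vale.Agent.P066.H347.W4Count
import Vale.Agent.P066.Lab.LSW.Antis
import Vale.Agent.P066.Lab.H678.Homog

/-!
# The element of a word is homogeneous of degree `degW`; dimensions from a homogeneous family
-/

set_option autoImplicit false

open Finset MvPolynomial

namespace Vale.Agent.P066.Lab.LSW

open Vale.Agent.P066 Vale.Agent.P066.Lab Vale.Agent.P066.Theta Vale.Agent.P066.Lab.H678
open Vale.Agent.P066.Theta.H422 (Alt TP mem_TP mem_Alt)

noncomputable section

section Graded

variable {S : Type} [Fintype S] [DecidableEq S] {I : Type} [Fintype I] [DecidableEq I]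

theorem um_isHomogeneous (c : S → ℕ) (α : ℕ →₀ ℕ) :
    (um ℚ c α).IsHomogeneous α.degree := by
  unfold um Finsupp.prod
  have h := IsHomogeneous.prod α.support (fun i => uk ℚ c i ^ α i) (fun i => α i) fun i _ => by
    simpa using (uk_isHomogeneous (k := ℚ) c i).pow (α i)
  exact h

end Graded

variable {n : ℕ} {a : Fin n → Fin n → ℕ} {θ : Fin n → ℤ} {L : Letters a θ}

theorem PW_isHomogeneous {r : ℕ} (w : Fin r → Ltr L) : (PW w).IsHomogeneous (degW a w) := by
  classical
  have h1 := KC_isHomogeneous (k := ℚ) (a := aT a (tyW (clsW w))) (cW (clsW w))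
  have h2 : (vW w).IsHomogeneous (∑ j, L.dg (w j).2.1) := by
    unfold vW
    exact IsHomogeneous.prod univ _ _ fun j _ => (L.hom _ (w j).2.1).rename_isHomogeneous
  have h3 := um_isHomogeneous (cW (clsW w)) (αW w)
  have h4 := h1.mul (h2.mul h3)
  have h5 : (αW w).degree = ∑ j, ml (w j) := by
    unfold αW
    rw [map_sum]
    exact sum_congr rfl fun j _ => Finsupp.degree_single _ _
  have h6 : (∑ p ∈ univ.filter (fun p : SW (clsW w) × SW (clsW w) =>
      cW (clsW w) p.1 < cW (clsW w) p.2), aT a (tyW (clsW w)) p.1 p.2) = crossW a (clsW w) := by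
    have h7 := CC_cW a (clsW w)
    unfold CC at h7
    exact_mod_cast h7
  rw [h6, h5] at h4
  unfold degW
  rw [sum_add_distrib]
  exact h4

theorem gW_isHomogeneous {r : ℕ} (w : Fin r → Ltr L) {d : Fin n →₀ ℕ}
    (e : SW (clsW w) ≃ Pt d) : (gW w e).IsHomogeneous (degW a w) :=
  antis_isHomogeneous _ (PW_isHomogeneous w).rename_isHomogeneous

theorem gW_mem_AltH {r : ℕ} (w : Fin r → Ltr L) {d : Fin n →₀ ℕ}
    (e : SW (clsW w) ≃ Pt d) : gW w e ∈ AltH ℚ (Sigma.fst : Pt d → Fin n) (degW a w) :=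
  ⟨antis_mem_Alt _ _, (mem_homogeneousSubmodule _ _).2 (gW_isHomogeneous w e)⟩

end

end Vale.Agent.P066.Lab.LSW
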