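import Vale.Agent.P066.H347.GWHom

/-!
# The dimension of a graded piece from a homogeneous basis
-/

set_option autoImplicit false

open Finset MvPolynomial

namespace Vale.Agent.P066.Lab.LSW

open Vale.Agent.P066 Vale.Agent.P066.Lab Vale.Agent.P066.Theta Vale.Agent.P066.Lab.H678
open Vale.Agent.P066.Theta.H422 (Alt TP mem_TP mem_Alt)

noncomputable section

variable {S : Type} [Fintype S] [DecidableEq S] {I : Type} [Fintype I] [DecidableEq I]

theorem hQ_eq_card (ty : S → I) {J : Ideal (MvPolynomial S ℚ)} (hJ : HomI J) {ι : Type}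
    (g : ι → MvPolynomial S ℚ) (δ : ι → ℕ) (hg : ∀ i, g i ∈ AltH ℚ ty (δ i))
    (ind : LinearIndependent ℚ fun i => Ideal.Quotient.mk J (g i)) (m : ℕ)
    (hspan : ∀ f ∈ AltH ℚ ty m,
      f ∈ Submodule.span ℚ (Set.range g) ⊔ J.restrictScalars ℚ) :
    hQ ℚ ty J m = Nat.card {i // δ i = m} := by
  classical
  set V : Submodule ℚ (MvPolynomial S ℚ ⧸ J.restrictScalars ℚ) :=
    (AltH ℚ ty m).map (J.restrictScalars ℚ).mkQ with hV
  let b : {i // δ i = m} → V := fun i =>
    ⟨(J.restrictScalars ℚ).mkQ (g i.1), Submodule.mem_map_of_mem (by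
      have := hg i.1
      rwa [i.2] at this)⟩
  have hli : LinearIndependent ℚ b := by
    rw [linearIndependent_iff'] at ind ⊢
    intro s c hc i hi
    have h1 : ∑ i ∈ s, c i • (J.restrictScalars ℚ).mkQ (g i.1) = 0 := by
      have := congrArg (Subtype.val) hc
      simpa [b] using this
    have h2 : ∑ i ∈ s, c i • g i.1 ∈ J := by
      have h3 : (J.restrictScalars ℚ).mkQ (∑ i ∈ s, c i • g i.1) = 0 := by
        rw [map_sum, ← h1]
        exact sum_congr rfl fun i _ => map_smul _ _ _
      exact (Submodule.Quotient.mk_eq_zero _).1 h3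
    have h4 := ind (s.map (Function.Embedding.subtype _)) (fun i => if h : δ i = m then c ⟨i, h⟩ else 0)
      (by
        rw [sum_map]
        have h5 : ∑ x ∈ s, (fun i => if h : δ i = m then c ⟨i, h⟩ else 0)
            ((Function.Embedding.subtype _) x) • (Ideal.Quotient.mk J)
              (g ((Function.Embedding.subtype _) x)) =
            Ideal.Quotient.mk J (∑ i ∈ s, c i • g i.1) := by
          rw [map_sum]
          refine sum_congr rfl fun x _ => ?_
          show (if h : δ x.1 = m then c ⟨x.1, h⟩ else 0) • _ = _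
          rw [dif_pos x.2]
          rfl
        rw [h5]
        exact Ideal.Quotient.eq_zero_iff_mem.2 h2)
      i.1 (mem_map.2 ⟨i, hi, rfl⟩)
    simpa [i.2] using h4
  have hsp : ⊤ ≤ Submodule.span ℚ (Set.range b) := by
    rintro ⟨x, hx⟩ -
    obtain ⟨f, hf, rfl⟩ := hx
    obtain ⟨h, hh, j, hj, hsum⟩ := Submodule.mem_sup.1 (hspan f hf)
    have h1 : homogeneousComponent m f = f := by
      rw [homogeneousComponent_of_mem hf.2, if_pos rfl]
    have h2 : homogeneousComponent m h ∈
        Submodule.span ℚ (Set.range fun i : {i // δ i = m} => g i.1) := by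
      refine Submodule.span_induction (p := fun h _ => homogeneousComponent m h ∈
        Submodule.span ℚ (Set.range fun i : {i // δ i = m} => g i.1)) ?_ ?_ ?_ ?_ hh
      · rintro _ ⟨i, rfl⟩
        rw [homogeneousComponent_of_mem (hg i).2]
        split_ifs with h3
        · exact Submodule.subset_span ⟨⟨i, h3.symm⟩, rfl⟩
        · exact Submodule.zero_mem _
      · rw [map_zero]; exact Submodule.zero_mem _
      · intro x y _ _ hx hy
        rw [map_add]; exact Submodule.add_mem _ hx hy
      · intro c x _ hx
        rw [map_smul]; exact Submodule.smul_mem _ _ hx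
    have h3 : (J.restrictScalars ℚ).mkQ f = (J.restrictScalars ℚ).mkQ (homogeneousComponent m h) := by
      have h4 : f = homogeneousComponent m h + homogeneousComponent m j := by
        rw [← map_add, hsum, h1]
      have h5 : (J.restrictScalars ℚ).mkQ (homogeneousComponent m j) = 0 :=
        (Submodule.Quotient.mk_eq_zero _).2 (hJ m j hj)
      conv_lhs => rw [h4]
      rw [map_add, h5, add_zero]
    have h6 : ((J.restrictScalars ℚ).mkQ (homogeneousComponent m h)) ∈
        Submodule.span ℚ (Set.range fun i : {i // δ i = m} => (J.restrictScalars ℚ).mkQ (g i.1)) := by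
      have h7 := Submodule.mem_map_of_mem (f := (J.restrictScalars ℚ).mkQ) h2
      rw [Submodule.map_span, ← Set.range_comp] at h7
      exact h7
    have h8 : (Submodule.span ℚ (Set.range b)).map V.subtype =
        Submodule.span ℚ (Set.range fun i : {i // δ i = m} => (J.restrictScalars ℚ).mkQ (g i.1)) := by
      rw [Submodule.map_span, ← Set.range_comp]
      rfl
    rw [← h8, ← h3] at h6
    obtain ⟨y, hy, hy2⟩ := h6
    have h9 : y = ⟨(J.restrictScalars ℚ).mkQ f, Submodule.mem_map_of_mem hf⟩ := Subtype.ext hy2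
    rw [← h9]
    exact hy
  have B := Module.Basis.mk hli hsp
  exact Module.finrank_eq_nat_card_basis B

end

end Vale.Agent.P066.Lab.LSW
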