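import Vale.Agent.P066.H347.Units
import Vale.Agent.P066.Theta.H615.Ring
import Vale.Agent.P066.Theta.H747.QuiverStatement

/-!
# Multivariate alphabets: super multisets -> finite products of units

`MAlph r`: alphabets with classes in `ℕ^r`.  `exists_units`: if the classes of the letters lie in a
submonoid on which `ω` vanishes and only finitely many letters have a class of degree `≤ D`, then up
to degree `D` the generating function of the words in the letters `(y, j)`, `j ∈ ℕ`, is a finite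
product of units in the quantum torus.
-/

set_option autoImplicit false

open Finset

namespace Vale.Agent.P066.H347

open Vale.Agent.P066.Theta

noncomputable section

/-- The degree as an additive map. -/
def szF (r : ℕ) : (Fin r →₀ ℕ) →+ ℕ where
  toFun := Theta.deg
  map_zero' := by simp [Theta.deg]
  map_add' x y := by simp [Theta.deg, sum_add_distrib]

theorem szF_apply {r : ℕ} (γ : Fin r →₀ ℕ) : szF r γ = Theta.deg γ := rfl

/-- Alphabets with classes in `ℕ^r`. -/
abbrev MAlph (r : ℕ) := Alph (Fin r →₀ ℕ) (szF r)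

variable {r : ℕ}

theorem nsmul_inj_of_pos {d : Fin r →₀ ℕ} (hd : 0 < szF r d) {i j : ℕ} (h : i • d = j • d) :
    i = j := by
  have h1 := congrArg (szF r) h
  rw [map_nsmul, map_nsmul, smul_eq_mul, smul_eq_mul] at h1
  exact Nat.eq_of_mul_eq_mul_right hd h1

theorem le_of_nsmul_eq {d γ : Fin r →₀ ℕ} (hd : 0 < szF r d) {i : ℕ} (h : i • d = γ) :
    i < Theta.deg γ + 1 := by
  have h1 := congrArg (szF r) h
  rw [map_nsmul, smul_eq_mul, szF_apply γ] at h1
  have : i * 1 ≤ i * szF r d := Nat.mul_le_mul_left i hd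
  omega

/-- The sum over all `n` with `n • d = γ` has at most one term. -/
theorem sum_nsmul {R : Type*} [AddCommMonoid R] {d γ : Fin r →₀ ℕ} (hd : 0 < szF r d) (f : ℕ → R)
    {i : ℕ} (h : i • d = γ) :
    (∑ n ∈ range (Theta.deg γ + 1), if n • d = γ then f n else 0) = f i := by
  rw [sum_eq_single i]
  · rw [if_pos h]
  · intro n _ hn
    rw [if_neg fun h' => hn (nsmul_inj_of_pos hd (h'.trans h.symm))]
  · intro hi
    exact absurd (mem_range.2 (le_of_nsmul_eq hd h)) hi

theorem sum_nsmul_of_not {R : Type*} [AddCommMonoid R] {d γ : Fin r →₀ ℕ} (f : ℕ → R)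
    (h : ∀ i : ℕ, i • d ≠ γ) :
    (∑ n ∈ range (Theta.deg γ + 1), if n • d = γ then f n else 0) = 0 :=
  sum_eq_zero fun n _ => if_neg (h n)

theorem cls_ray {d : Fin r →₀ ℕ} {hd : 0 < szF r d} {e : ℤ} {o : Bool}
    (μ : (Alph.ray d hd e o : MAlph r).Word) :
    (Alph.ray d hd e o : MAlph r).cls μ = (μ.m.sum fun _ n => n) • d := by
  show (μ.m.sum fun _ n => n • d) = _
  unfold Finsupp.sum
  rw [sum_smul]

/-- The words in a ray. -/
theorem gen_ray (d : Fin r →₀ ℕ) (hd : 0 < szF r d) (e : ℤ) (o : Bool) (γ : Fin r →₀ ℕ) :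
    (Alph.ray d hd e o : MAlph r).gen γ =
      ∑ n ∈ range (Theta.deg γ + 1), if n • d = γ then (rayN e o).gen n else 0 := by
  by_cases h : ∃ i : ℕ, i • d = γ
  · obtain ⟨i, rfl⟩ := h
    rw [sum_nsmul hd _ rfl]
    ext N
    rw [Alph.coeff_gen, Alph.coeff_gen]
    congr 1
    refine Alph.num_congr' (S := (Alph.ray d hd e o : MAlph r)) (T := rayN e o)
      ⟨fun μ => ⟨μ.m, μ.odd_le⟩, fun μ => ⟨μ.m, μ.odd_le⟩, fun _ => rfl, fun _ => rfl⟩
      fun μ => ?_
    have h1 : (rayN e o).cls ⟨μ.m, μ.odd_le⟩ = (μ.m.sum fun _ n => n) :=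
      Finsupp.sum_congr fun _ _ => mul_one _
    constructor
    · rintro ⟨h2, h3⟩
      refine ⟨h1.trans ?_, h3⟩
      rw [cls_ray] at h2
      exact nsmul_inj_of_pos hd h2
    · rintro ⟨h2, h3⟩
      refine ⟨?_, h3⟩
      rw [cls_ray]
      congr 1
      exact h1.symm.trans h2
  · push Not at h
    rw [sum_nsmul_of_not _ h]
    ext N
    rw [Alph.coeff_gen, HahnSeries.coeff_zero, Alph.num]
    have : ((Alph.ray d hd e o : MAlph r).finite_eq γ N).toFinset = ∅ := by
      rw [Set.Finite.toFinset_eq_empty, Set.eq_empty_iff_forall_notMem]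
      rintro μ ⟨h1, -⟩
      rw [cls_ray] at h1
      exact h _ h1
    rw [this, card_empty, Nat.cast_zero]

/-- The unit of a letter: type, power of `v`, class. -/
def unitOf (e : ℤ) (o : Bool) (d : Fin r →₀ ℕ) : Bool × ℤ × (Fin r →₀ ℕ) :=
  (!o, (if o then 1 - e else -e), d)

theorem map_unitQ (B : Matrix (Fin r) (Fin r) ℤ) (φ : K →+* KL) (hφ : φ v = vL (-1))
    (d : Fin r →₀ ℕ) (hd : 0 < szF r d) (e : ℤ) (o : Bool) (γ : Fin r →₀ ℕ) :
    φ (unitQ B (unitOf e o d).1 (unitOf e o d).2.1 (unitOf e o d).2.2 γ) =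
      (Alph.ray d hd e o : MAlph r).gen γ := by
  rw [gen_ray]
  unfold unitQ unitOf
  rw [map_sum]
  refine sum_congr rfl fun n _ => ?_
  by_cases h : n • d = γ
  · rw [if_pos h, if_pos h, gen_rayN_eq φ hφ]
    rfl
  · rw [if_neg h, if_neg h, map_zero]

/-! ### sub-alphabets -/

namespace Alph

variable {M : Type*} [AddCommMonoid M] {sz : M →+ ℕ}

/-- The letters satisfying `p`. -/
abbrev sub (S : Alph M sz) (p : S.A → Prop) : Alph M sz where
  A := {a // p a}
  k a := S.k a.1
  e a := S.e a.1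
  odd a := S.odd a.1
  k_pos a := S.k_pos a.1
  fin n N := by
    refine Set.Finite.of_finite_image (f := Subtype.val) ((S.fin n N).subset ?_)
      Subtype.val_injective.injOn
    rintro _ ⟨a, ha, rfl⟩
    exact ha

/-- A word in a sub-alphabet as a word of the big one. -/
def inclWord (S : Alph M sz) (p : S.A → Prop) (μ : (S.sub p).Word) : S.Word :=
  ⟨μ.m.mapDomain Subtype.val, fun a h => by
    by_cases ha : a ∈ Set.range (Subtype.val : {a // p a} → S.A)
    · obtain ⟨b, rfl⟩ := ha
      rw [Finsupp.mapDomain_apply Subtype.val_injective]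
      exact μ.odd_le b h
    · rw [Finsupp.mapDomain_of_notMem_range _ _ ha]
      exact Nat.zero_le _⟩

theorem inclWord_injective (S : Alph M sz) (p : S.A → Prop) :
    Function.Injective (S.inclWord p) := fun μ ν h => by
  refine Word.ext (Finsupp.mapDomain_injective Subtype.val_injective ?_)
  exact congrArg Word.m h

theorem cls_inclWord (S : Alph M sz) (p : S.A → Prop) (μ : (S.sub p).Word) :
    S.cls (S.inclWord p μ) = (S.sub p).cls μ :=
  Finsupp.sum_mapDomain_index_inj Subtype.val_injective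

theorem deg_inclWord (S : Alph M sz) (p : S.A → Prop) (μ : (S.sub p).Word) :
    S.deg (S.inclWord p μ) = (S.sub p).deg μ :=
  Finsupp.sum_mapDomain_index_inj Subtype.val_injective

theorem exists_inclWord (S : Alph M sz) (p : S.A → Prop) (μ : S.Word)
    (h : ∀ a ∈ μ.m.support, p a) : ∃ ν, S.inclWord p ν = μ := by
  refine ⟨⟨μ.m.comapDomain Subtype.val Subtype.val_injective.injOn, fun a ha => ?_⟩, ?_⟩
  · rw [Finsupp.comapDomain_apply]
    exact μ.odd_le a.1 ha
  · refine Word.ext ?_
    refine Finsupp.mapDomain_comapDomain _ Subtype.val_injective _ fun a ha => ?_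
    exact ⟨⟨a, h a ha⟩, rfl⟩

/-- Words of class `m` only use letters of size at most `sz m`. -/
theorem gen_sub (S : Alph M sz) (p : S.A → Prop) (m : M) (h : ∀ a, sz (S.k a) ≤ sz m → p a) :
    (S.sub p).gen m = S.gen m := by
  ext N
  rw [coeff_gen, coeff_gen]
  congr 1
  refine Finset.card_bij (fun μ _ => S.inclWord p μ) ?_
    (fun _ _ _ _ h => S.inclWord_injective p h) ?_
  · intro μ hμ
    rw [Set.Finite.mem_toFinset] at hμ ⊢
    exact ⟨(S.cls_inclWord p μ).trans hμ.1, (S.deg_inclWord p μ).trans hμ.2⟩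
  · intro ν hν
    rw [Set.Finite.mem_toFinset] at hν
    obtain ⟨μ, rfl⟩ := S.exists_inclWord p ν fun a ha =>
      h a (hν.1 ▸ S.sz_le_of_mem ν ha)
    refine ⟨μ, ?_, rfl⟩
    rw [Set.Finite.mem_toFinset]
    exact ⟨(S.cls_inclWord p μ).symm.trans hν.1, (S.deg_inclWord p μ).symm.trans hν.2⟩

end Alph

open QSeries

/-- Finitely many letters give a finite product of units. -/
theorem exists_units_finset (B : Matrix (Fin r) (Fin r) ℤ) (φ : K →+* KL) (hφ : φ v = vL (-1))
    (Z : AddSubmonoid (Fin r →₀ ℕ))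
    (hZ : ∀ d ∈ Z, ∀ d' ∈ Z, omega B (Theta.toZ d) (Theta.toZ d') = 0)
    (S : MAlph r) (hS : ∀ a, S.k a ∈ Z) [DecidablePred S.odd] (F : Finset S.A) :
    ∃ l : List (Bool × ℤ × (Fin r →₀ ℕ)),
      (∀ u ∈ l, ∃ a ∈ F, u = unitOf (S.e a) (decide (S.odd a)) (S.k a)) ∧
      ((l.map fun u => unitQ B u.1 u.2.1 u.2.2).prod ∈ QSeries.supp (B := B) Z) ∧
      ∀ γ, φ ((l.map fun u => unitQ B u.1 u.2.1 u.2.2).prod γ) =
        (S.loop.sub fun x => x.1 ∈ F).gen γ := by
  classical
  induction F using Finset.induction_on with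
  | empty =>
    refine ⟨[], by simp, Subalgebra.one_mem _, fun γ => ?_⟩
    have : IsEmpty (S.loop.sub fun x => x.1 ∈ (∅ : Finset S.A)).A :=
      ⟨fun x => absurd x.2 (Finset.notMem_empty _)⟩
    rw [Alph.gen_of_isEmpty, List.map_nil, List.prod_nil, QSeries.one_apply]
    split_ifs
    · exact map_one φ
    · exact map_zero φ
  | insert a F ha ih =>
    obtain ⟨l, h1, h2, h3⟩ := ih
    set u := unitOf (S.e a) (decide (S.odd a)) (S.k a) with hu
    have hsu : unitQ B u.1 u.2.1 u.2.2 ∈ QSeries.supp (B := B) Z := by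
      intro γ hγ
      by_contra hγ'
      refine hγ (sum_eq_zero fun n _ => if_neg fun h => hγ' ?_)
      rw [← h]
      exact nsmul_mem (hS a) n
    refine ⟨u :: l, ?_, ?_, fun γ => ?_⟩
    · intro w hw
      rcases List.mem_cons.1 hw with rfl | hw
      · exact ⟨a, mem_insert_self a F, rfl⟩
      · obtain ⟨b, hb, hw⟩ := h1 w hw
        exact ⟨b, mem_insert_of_mem hb, hw⟩
    · rw [List.map_cons, List.prod_cons]
      exact Subalgebra.mul_mem _ hsu h2
    · rw [List.map_cons, List.prod_cons, QSeries.mul_apply, map_sum]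
      have h4 : (S.loop.sub fun x => x.1 ∈ insert a F).gen γ =
          ((Alph.ray (S.k a) (S.k_pos a) (S.e a) (decide (S.odd a))).sum
            (S.loop.sub fun x => x.1 ∈ F)).gen γ := by
        symm
        refine Alph.gen_congr (S := (Alph.ray (S.k a) (S.k_pos a) (S.e a) (decide (S.odd a))).sum
            (S.loop.sub fun x => x.1 ∈ F)) (T := S.loop.sub fun x => x.1 ∈ insert a F)
          (Equiv.ofBijective (fun x => Sum.elim
            (fun j : ℕ => (⟨(a, j), mem_insert_self a F⟩ : {x : S.A × ℕ // x.1 ∈ insert a F}))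
            (fun x : {x : S.A × ℕ // x.1 ∈ F} => ⟨x.1, mem_insert_of_mem x.2⟩) x) ⟨?_, ?_⟩)
          ?_ ?_ ?_ γ
        · rintro (i | ⟨x, hx⟩) (j | ⟨y, hy⟩) h
          · have := congrArg (fun z => z.1.2) h
            exact congrArg Sum.inl this
          · have h5 : a = y.1 := congrArg (fun z => z.1.1) h
            rw [← h5] at hy
            exact absurd hy ha
          · have h5 : x.1 = a := congrArg (fun z => z.1.1) h
            rw [h5] at hx
            exact absurd hx ha
          · have h5 := congrArg (fun z => z.1) h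
            exact congrArg Sum.inr (Subtype.ext h5)
        · rintro ⟨⟨b, j⟩, hx⟩
          rcases mem_insert.1 hx with h | h
          · obtain rfl : b = a := h
            exact ⟨Sum.inl j, rfl⟩
          · exact ⟨Sum.inr ⟨(b, j), h⟩, rfl⟩
        · rintro (j | x) <;> rfl
        · rintro (j | x) <;> rfl
        · rintro (j | x)
          · exact (decide_eq_true_iff (p := S.odd a)).symm
          · exact Iff.rfl
      rw [h4, Alph.gen_sum]
      refine sum_congr rfl fun p _ => ?_
      rw [map_mul, map_mul, h3, map_unitQ B φ hφ (S.k a) (S.k_pos a)]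
      by_cases h5 : unitQ B u.1 u.2.1 u.2.2 p.1 = 0
      · have h6 := map_unitQ B φ hφ (S.k a) (S.k_pos a) (S.e a) (decide (S.odd a)) p.1
        rw [← hu, h5, map_zero] at h6
        rw [← h6, mul_zero, zero_mul]
      by_cases h7 : (l.map fun u => unitQ B u.1 u.2.1 u.2.2).prod p.2 = 0
      · have h8 := h3 p.2
        rw [h7, map_zero] at h8
        rw [← h8, mul_zero, mul_zero]
      · rw [hZ _ (hsu _ h5) _ (h2 _ h7), zpow_zero, map_one, one_mul]

/-- **Super multisets -> units.**  If only finitely many letters have class of degree `≤ D`, then up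
to degree `D` the generating function of the words in the letters `(y, j)`, `j ∈ ℕ`, is a finite
product of units. -/
theorem exists_units (B : Matrix (Fin r) (Fin r) ℤ) (φ : K →+* KL) (hφ : φ v = vL (-1))
    (Z : AddSubmonoid (Fin r →₀ ℕ))
    (hZ : ∀ d ∈ Z, ∀ d' ∈ Z, omega B (Theta.toZ d) (Theta.toZ d') = 0)
    (S : MAlph r) (hS : ∀ a, S.k a ∈ Z) (D : ℕ) (hfin : {a | Theta.deg (S.k a) ≤ D}.Finite) :
    ∃ l : List (Bool × ℤ × (Fin r →₀ ℕ)),
      (∀ u ∈ l, u.2.2 ≠ 0 ∧ u.2.2 ∈ Z) ∧
      ∀ γ, Theta.deg γ ≤ D → φ ((l.map fun u => unitQ B u.1 u.2.1 u.2.2).prod γ) =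
        S.loop.gen γ := by
  classical
  obtain ⟨l, h1, h2, h3⟩ := exists_units_finset B φ hφ Z hZ S hS hfin.toFinset
  refine ⟨l, fun u hu => ?_, fun γ hγ => ?_⟩
  · obtain ⟨a, ha, rfl⟩ := h1 u hu
    refine ⟨fun h => ?_, hS a⟩
    have h4 := S.k_pos a
    rw [show S.k a = 0 from h, map_zero] at h4
    exact lt_irrefl _ h4
  · rw [h3]
    refine Alph.gen_sub _ _ _ fun a ha => ?_
    rw [Set.Finite.mem_toFinset]
    exact le_trans ha hγ

end

end Vale.Agent.P066.H347
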