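import Vale.Agent.P066.H347.Multi

/-!
# Splitting off finitely many letters

`below c`: the letters `(y, j)` with `j < c (k y)`.  `gen_split`: the words in all letters `(y, j)`
are the words in the letters `below c`, times the words in the others, which are the same as the
words in all letters with the degrees raised by `2 c`.

`finite_of_split`: if all the series `gen (below c)` have finite support, there are only finitely
many letters `y` in every class `m` with `c m > 0`.
-/

set_option autoImplicit false

open Finset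

namespace Vale.Agent.P066.H347

open Vale.Agent.P066.Theta

noncomputable section

namespace Alph

variable {M : Type*} [AddCommMonoid M] {sz : M →+ ℕ}

/-- Degrees raised by `2 c`. -/
abbrev raise (S : Alph M sz) (c : M →+ ℕ) : Alph M sz where
  A := S.A
  k := S.k
  e a := S.e a + 2 * (c (S.k a) : ℤ)
  odd := S.odd
  k_pos := S.k_pos
  fin n N := (S.fin n N).subset fun a h => by
    obtain ⟨h1, h2⟩ := h
    exact ⟨h1, by omega⟩

theorem hom_cls (S : Alph M sz) (c : M →+ ℕ) (μ : S.Word) :
    c (S.cls μ) = μ.m.sum fun a n => n * c (S.k a) := by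
  unfold cls Finsupp.sum
  rw [map_sum]
  exact sum_congr rfl fun a _ => by rw [map_nsmul, smul_eq_mul]

theorem gen_raise (S : Alph M sz) (c : M →+ ℕ) (m : M) :
    (S.raise c).gen m = vL (2 * (c m : ℤ)) * S.gen m := by
  refine gen_shift (S := S) (T := S.raise c) (Equiv.refl _) (fun _ => rfl) (fun _ => Iff.rfl) m _
    fun μ hμ => ?_
  rw [← hμ, hom_cls]
  show (μ.m.sum fun a n => (n : ℤ) * (S.e a + 2 * (c (S.k a) : ℤ))) =
    (μ.m.sum fun a n => (n : ℤ) * S.e a) + 2 * ((μ.m.sum fun a n => n * c (S.k a) : ℕ) : ℤ)
  unfold Finsupp.sum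
  push_cast
  rw [mul_sum, ← sum_add_distrib]
  exact sum_congr rfl fun a _ => by ring

/-- The letters `(y, j)` with `j < c (k y)`. -/
abbrev below (S : Alph M sz) (c : M →+ ℕ) : Alph M sz := S.loop.sub fun x => x.2 < c (S.k x.1)

/-- `(y, j)`, `j ∈ ℕ` is the union of `j < c` and `j ≥ c`. -/
theorem gen_split [HasAntidiagonal M] [DecidableEq M] (S : Alph M sz) (c : M →+ ℕ) (m : M) :
    S.loop.gen m = ∑ p ∈ antidiagonal m,
      (S.below c).gen p.1 * (vL (2 * (c p.2 : ℤ)) * S.loop.gen p.2) := by
  have h4 : ((S.below c).sum (S.loop.raise c)).gen m = S.loop.gen m := by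
    refine gen_congr (S := (S.below c).sum (S.loop.raise c)) (T := S.loop)
      (Equiv.ofBijective (fun x => Sum.elim
        (fun x : {x : S.A × ℕ // x.2 < c (S.k x.1)} => x.1)
        (fun x : S.A × ℕ => (x.1, x.2 + c (S.k x.1))) x) ⟨?_, ?_⟩) ?_ ?_ ?_ m
    · rintro (⟨⟨a, i⟩, hi⟩ | ⟨a, i⟩) (⟨⟨b, j⟩, hj⟩ | ⟨b, j⟩) h
      · exact congrArg Sum.inl (Subtype.ext h)
      · have h1 : a = b := congrArg (fun z => z.1) h
        have h2 : i = j + c (S.k b) := congrArg (fun z => z.2) h
        subst h1
        have h3 : i < c (S.k a) := hi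
        omega
      · have h1 : a = b := congrArg (fun z => z.1) h
        have h2 : i + c (S.k a) = j := congrArg (fun z => z.2) h
        subst h1
        have h3 : j < c (S.k a) := hj
        omega
      · have h1 : a = b := congrArg (fun z => z.1) h
        have h2 : i + c (S.k a) = j + c (S.k b) := congrArg (fun z => z.2) h
        subst h1
        have h3 : i = j := by omega
        rw [h3]
    · rintro ⟨a, i⟩
      by_cases hi : i < c (S.k a)
      · exact ⟨Sum.inl ⟨(a, i), hi⟩, rfl⟩
      · refine ⟨Sum.inr (a, i - c (S.k a)), ?_⟩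
        show (a, i - c (S.k a) + c (S.k a)) = (a, i)
        rw [Nat.sub_add_cancel (not_lt.1 hi)]
    · rintro (x | x) <;> rfl
    · rintro (x | x)
      · rfl
      · show S.e x.1 + 2 * ((x.2 + c (S.k x.1) : ℕ) : ℤ) =
          S.e x.1 + 2 * (x.2 : ℤ) + 2 * (c (S.k x.1) : ℤ)
        push_cast
        ring
    · rintro (x | x) <;> exact Iff.rfl
  rw [← h4, gen_sum]
  exact sum_congr rfl fun p _ => by rw [gen_raise]

/-- If the words in the letters `below c` of class `m` have only finitely many degrees, and
`c m > 0`, then there are finitely many letters of class `m`. -/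
theorem finite_of_split (S : Alph M sz) (c : M →+ ℕ) (m : M) (hc : 0 < c m)
    (h : {N | ((S.below c).gen m).coeff N ≠ 0}.Finite) : {a | S.k a = m}.Finite := by
  classical
  have h1 : {μ : (S.below c).Word | (S.below c).cls μ = m}.Finite := by
    refine (h.biUnion fun N _ => (S.below c).finite_eq m N).subset fun μ hμ => ?_
    have hμ' : (S.below c).cls μ = m := hμ
    rw [Set.mem_iUnion₂]
    refine ⟨(S.below c).deg μ, ?_, hμ, rfl⟩
    show ((S.below c).gen m).coeff ((S.below c).deg μ) ≠ 0
    rw [coeff_gen, Nat.cast_ne_zero, num, ne_eq, card_eq_zero]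
    exact fun h2 => Finset.notMem_empty μ (h2 ▸ (Set.Finite.mem_toFinset _).2 ⟨hμ', rfl⟩)
  let f : {a | S.k a = m} → {μ : (S.below c).Word | (S.below c).cls μ = m} := fun a =>
    ⟨⟨Finsupp.single ⟨(a.1, 0), by
        show 0 < c (S.k a.1)
        rw [show S.k a.1 = m from a.2]
        exact hc⟩ 1, fun b _ => by
        rw [Finsupp.single_apply]
        split_ifs <;> omega⟩, by
      exact (Finsupp.sum_single_index (h := fun a n => n • (S.below c).k a)
        (zero_smul ℕ _)).trans ((one_smul ℕ _).trans a.2)⟩
  have hf : Function.Injective f := by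
    intro a b hab
    have h2 := congrArg (fun x => x.1.m) hab
    have h3 := Finsupp.single_left_injective one_ne_zero h2
    exact Subtype.ext (congrArg (fun x => x.1.1) h3)
  have := h1.to_subtype
  have := Finite.of_injective f hf
  exact Set.toFinite _

end Alph

end

end Vale.Agent.P066.H347
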