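import Vale.Agent.P066.H347.Alphabet
import Vale.Agent.P066.Theta.Uncond
import Vale.Agent.P066.Theta.PosL

/-!
# Generating functions of super multisets and the unit series

Alphabets with classes in `ℕ`.  `genP S : ℚ((v))[[T]]` is the generating function of the words.
For a letter with all its translates `(y, j)`, `j ∈ ℕ`, of degree `e + 2j`, the generating function
is the inverse of the unit series of `Theta/Uncond.lean`.
-/

set_option autoImplicit false

open Finset

namespace Vale.Agent.P066.H347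

open Vale.Agent.P066.Theta

noncomputable section

/-- Alphabets with classes in `ℕ`. -/
abbrev NAlph := Alph ℕ (AddMonoidHom.id ℕ)

namespace Alph

variable {M : Type*} [AddCommMonoid M] {sz : M →+ ℕ}

/-! ### general lemmas -/

/-- Words along a bijection of the letters. -/
def wordCongr {S T : Alph M sz} (φ : S.A ≃ T.A) (ho : ∀ a, T.odd (φ a) ↔ S.odd a) :
    S.Word ≃ T.Word where
  toFun μ := ⟨μ.m.mapDomain φ, fun a h => by
    obtain ⟨a, rfl⟩ := φ.surjective a
    rw [Finsupp.mapDomain_apply φ.injective]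
    exact μ.odd_le a ((ho a).1 h)⟩
  invFun μ := ⟨μ.m.mapDomain φ.symm, fun a h => by
    obtain ⟨a, rfl⟩ := φ.symm.surjective a
    rw [Finsupp.mapDomain_apply φ.symm.injective]
    refine μ.odd_le a ?_
    rw [← ho, Equiv.apply_symm_apply] at h
    exact h⟩
  left_inv μ := by
    refine Word.ext ?_
    show (μ.m.mapDomain φ).mapDomain φ.symm = μ.m
    rw [← Finsupp.mapDomain_comp]
    simp
  right_inv μ := by
    refine Word.ext ?_
    show (μ.m.mapDomain φ.symm).mapDomain φ = μ.m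
    rw [← Finsupp.mapDomain_comp]
    simp

theorem num_congr' {S : Alph M sz} {M' : Type*} [AddCommMonoid M'] {sz' : M' →+ ℕ}
    {T : Alph M' sz'} (ψ : S.Word ≃ T.Word) {m : M} {m' : M'} {N N' : ℤ}
    (h : ∀ μ, (S.cls μ = m ∧ S.deg μ = N) ↔ (T.cls (ψ μ) = m' ∧ T.deg (ψ μ) = N')) :
    S.num m N = T.num m' N' := by
  refine Finset.card_bij (fun μ _ => ψ μ) ?_ (fun _ _ _ _ h => ψ.injective h) ?_
  · intro μ hμ
    rw [Set.Finite.mem_toFinset] at hμ ⊢
    exact (h μ).1 hμ
  · intro ν hν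
    rw [Set.Finite.mem_toFinset] at hν
    refine ⟨ψ.symm ν, ?_, ψ.apply_symm_apply ν⟩
    rw [Set.Finite.mem_toFinset]
    refine (h _).2 ?_
    rw [ψ.apply_symm_apply]
    exact hν

theorem cls_wordCongr {S T : Alph M sz} (φ : S.A ≃ T.A) (ho : ∀ a, T.odd (φ a) ↔ S.odd a)
    (hk : ∀ a, T.k (φ a) = S.k a) (μ : S.Word) : T.cls (wordCongr φ ho μ) = S.cls μ := by
  show ((μ.m.mapDomain φ).sum fun a n => n • T.k a) = μ.m.sum fun a n => n • S.k a
  rw [Finsupp.sum_mapDomain_index_inj φ.injective]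
  exact Finsupp.sum_congr fun a _ => by rw [hk]

theorem deg_wordCongr {S T : Alph M sz} (φ : S.A ≃ T.A) (ho : ∀ a, T.odd (φ a) ↔ S.odd a)
    (μ : S.Word) : T.deg (wordCongr φ ho μ) = μ.m.sum fun a n => (n : ℤ) * T.e (φ a) := by
  show ((μ.m.mapDomain φ).sum fun a n => (n : ℤ) * T.e a) = _
  rw [Finsupp.sum_mapDomain_index_inj φ.injective]

theorem gen_congr {S T : Alph M sz} (φ : S.A ≃ T.A) (hk : ∀ a, T.k (φ a) = S.k a)
    (he : ∀ a, T.e (φ a) = S.e a) (ho : ∀ a, T.odd (φ a) ↔ S.odd a) (m : M) :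
    S.gen m = T.gen m := by
  ext N
  rw [coeff_gen, coeff_gen]
  congr 1
  refine num_congr' (wordCongr φ ho) fun μ => ?_
  rw [cls_wordCongr φ ho hk, deg_wordCongr]
  have : (μ.m.sum fun a n => (n : ℤ) * T.e (φ a)) = S.deg μ :=
    Finsupp.sum_congr fun a _ => by rw [he]
  rw [this]

/-- Same letters and classes, degrees shifted by a constant `w` on all words of class `m`. -/
theorem gen_shift {S T : Alph M sz} (φ : S.A ≃ T.A) (hk : ∀ a, T.k (φ a) = S.k a)
    (ho : ∀ a, T.odd (φ a) ↔ S.odd a) (m : M) (w : ℤ)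
    (hw : ∀ μ : S.Word, S.cls μ = m →
      (μ.m.sum fun a n => (n : ℤ) * T.e (φ a)) = S.deg μ + w) :
    T.gen m = HahnSeries.single w 1 * S.gen m := by
  ext N
  have h1 : (HahnSeries.single w (1 : ℚ) * S.gen m).coeff N = (S.gen m).coeff (N - w) := by
    have := HahnSeries.coeff_single_mul_add (r := (1 : ℚ)) (x := S.gen m) (a := N - w) (b := w)
    rw [sub_add_cancel, one_mul] at this
    exact this
  rw [h1, coeff_gen, coeff_gen]
  congr 1
  symm
  refine num_congr' (wordCongr φ ho) fun μ => ?_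
  rw [cls_wordCongr φ ho hk, deg_wordCongr]
  constructor
  · rintro ⟨h2, h3⟩
    exact ⟨h2, by rw [hw μ h2, h3]; ring⟩
  · rintro ⟨h2, h3⟩
    refine ⟨h2, ?_⟩
    rw [hw μ h2] at h3
    omega

/-! ### one letter -/

/-- A single letter. -/
abbrev one (d : M) (hd : 0 < sz d) (e : ℤ) (o : Bool) : Alph M sz where
  A := Unit
  k _ := d
  e _ := e
  odd _ := o = true
  k_pos _ := hd
  fin _ _ := Set.toFinite _

/-- The letters `(y, j)`, `j ∈ ℕ`, of class `d` and degree `e + 2j`. -/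
abbrev ray (d : M) (hd : 0 < sz d) (e : ℤ) (o : Bool) : Alph M sz where
  A := ℕ
  k _ := d
  e j := e + 2 * j
  odd _ := o = true
  k_pos _ := hd
  fin n N := by
    refine (Set.finite_Iic (N - e).toNat).subset fun j hj => ?_
    have h2 : e + 2 * (j : ℤ) ≤ N := hj.2
    show j ≤ (N - e).toNat
    omega

/-- All letters `(y, j)`, `j ∈ ℕ`, `y` a letter of `S`. -/
abbrev loop (S : Alph M sz) : Alph M sz where
  A := S.A × ℕ
  k a := S.k a.1
  e a := S.e a.1 + 2 * a.2
  odd a := S.odd a.1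
  k_pos a := S.k_pos a.1
  fin n N := by
    obtain ⟨E, hE0, hE⟩ := S.exists_bound n
    refine ((S.fin n N).prod (Set.finite_Iic (N - E).toNat)).subset fun a ha => ?_
    have h1 : sz (S.k a.1) ≤ n := ha.1
    have h2 : S.e a.1 + 2 * (a.2 : ℤ) ≤ N := ha.2
    have h3 := hE a.1 h1
    exact ⟨⟨h1, by omega⟩, show a.2 ≤ (N - E).toNat by omega⟩

/-- The number of words without letters. -/
theorem num_of_isEmpty (S : Alph M sz) [IsEmpty S.A] [DecidableEq M] (m : M) (N : ℤ) :
    S.num m N = if m = 0 ∧ N = 0 then 1 else 0 := by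
  have h0 : ∀ μ : S.Word, μ.m = 0 := fun μ => Subsingleton.elim _ _
  have h1 : ∀ μ : S.Word, S.cls μ = 0 := fun μ => by
    unfold cls; rw [h0 μ, Finsupp.sum_zero_index]
  have h2 : ∀ μ : S.Word, S.deg μ = 0 := fun μ => by
    unfold deg; rw [h0 μ, Finsupp.sum_zero_index]
  split_ifs with h
  · obtain ⟨rfl, rfl⟩ := h
    rw [num, Finset.card_eq_one]
    refine ⟨⟨0, fun a => (IsEmpty.false a).elim⟩, ?_⟩
    ext μ
    rw [Set.Finite.mem_toFinset, Finset.mem_singleton]
    exact ⟨fun _ => Word.ext (h0 μ), fun _ => ⟨h1 μ, h2 μ⟩⟩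
  · rw [num, Finset.card_eq_zero, Set.Finite.toFinset_eq_empty, Set.eq_empty_iff_forall_notMem]
    rintro μ ⟨h3, h4⟩
    exact h ⟨h3 ▸ h1 μ, h4 ▸ h2 μ⟩

theorem m_eq_zero_of_cls {S : Alph M sz} {μ : S.Word} (h : S.cls μ = 0) : μ.m = 0 := by
  ext a
  by_contra h1
  have h2 := S.sz_le_of_mem μ (Finsupp.mem_support_iff.2 h1)
  rw [h, map_zero] at h2
  exact absurd (S.k_pos a) (by omega)

theorem gen_zero (S : Alph M sz) : S.gen 0 = 1 := by
  ext N
  rw [coeff_gen, HahnSeries.coeff_one]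
  by_cases hN : N = 0
  · rw [if_pos hN, hN, num]
    have : ((S.finite_eq 0 0).toFinset).card = 1 := by
      rw [Finset.card_eq_one]
      refine ⟨⟨0, fun a _ => Nat.zero_le _⟩, ?_⟩
      ext μ
      rw [Set.Finite.mem_toFinset, Finset.mem_singleton]
      constructor
      · rintro ⟨h1, -⟩
        exact Word.ext (m_eq_zero_of_cls h1)
      · rintro rfl
        exact ⟨Finsupp.sum_zero_index, Finsupp.sum_zero_index⟩
    rw [this, Nat.cast_one]
  · rw [if_neg hN, num]
    have : (S.finite_eq 0 N).toFinset = ∅ := by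
      rw [Set.Finite.toFinset_eq_empty, Set.eq_empty_iff_forall_notMem]
      rintro μ ⟨h1, h2⟩
      refine hN (h2 ▸ ?_)
      unfold deg
      rw [m_eq_zero_of_cls h1]
      exact Finsupp.sum_zero_index
    rw [this, Finset.card_empty, Nat.cast_zero]

theorem gen_of_isEmpty (S : Alph M sz) [IsEmpty S.A] [DecidableEq M] (m : M) :
    S.gen m = if m = 0 then 1 else 0 := by
  ext N
  rw [coeff_gen, num_of_isEmpty]
  split_ifs with h h1 h1
  · obtain ⟨rfl, rfl⟩ := h; simp
  · exact absurd h.1 h1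
  · have : N ≠ 0 := fun h2 => h ⟨h1, h2⟩
    simp [HahnSeries.coeff_one, this]
  · simp

end Alph

/-! ### power series -/

variable {S T : NAlph}

/-- The generating function in `ℚ((v))[[T]]`. -/
def genP (S : NAlph) : PowerSeries KL := PowerSeries.mk S.gen

@[simp] theorem coeff_genP (S : NAlph) (n : ℕ) : PowerSeries.coeff n (genP S) = S.gen n :=
  PowerSeries.coeff_mk _ _

theorem genP_sum : genP (S.sum T) = genP S * genP T := by
  ext1 n
  rw [coeff_genP, Alph.gen_sum, PowerSeries.coeff_mul]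
  exact sum_congr rfl fun p _ => by rw [coeff_genP, coeff_genP]

theorem genP_of_isEmpty [IsEmpty S.A] : genP S = 1 := by
  ext1 n
  rw [coeff_genP, Alph.gen_of_isEmpty, PowerSeries.coeff_one]

theorem genP_congr (φ : S.A ≃ T.A) (hk : ∀ a, T.k (φ a) = S.k a)
    (he : ∀ a, T.e (φ a) = S.e a) (ho : ∀ a, T.odd (φ a) ↔ S.odd a) : genP S = genP T := by
  ext1 n
  rw [coeff_genP, coeff_genP, Alph.gen_congr φ hk he ho]

/-! ### the ray of a letter of class `1` -/

/-- One letter of class `1`. -/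
abbrev oneN (e : ℤ) (o : Bool) : NAlph := Alph.one 1 (show 0 < (AddMonoidHom.id ℕ) 1 from Nat.one_pos) e o

/-- The ray of a letter of class `1`. -/
abbrev rayN (e : ℤ) (o : Bool) : NAlph := Alph.ray 1 (show 0 < (AddMonoidHom.id ℕ) 1 from Nat.one_pos) e o

theorem cls_oneN {e : ℤ} {o : Bool} (μ : (oneN e o).Word) : (oneN e o).cls μ = μ.m () := by
  show (μ.m.sum fun _ n => n • (1 : ℕ)) = μ.m ()
  rw [Finsupp.sum_fintype _ _ (fun _ => by simp)]
  simp

theorem deg_oneN {e : ℤ} {o : Bool} (μ : (oneN e o).Word) :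
    (oneN e o).deg μ = (μ.m () : ℤ) * e := by
  show (μ.m.sum fun a n => (n : ℤ) * e) = _
  rw [Finsupp.sum_fintype _ _ (fun _ => by simp)]
  simp

theorem num_oneN (e : ℤ) (o : Bool) (n : ℕ) (N : ℤ) :
    (oneN e o).num n N = if (o = true → n ≤ 1) ∧ N = n * e then 1 else 0 := by
  split_ifs with h
  · rw [Alph.num, Finset.card_eq_one]
    refine ⟨⟨Finsupp.single () n, fun _ ho => ?_⟩, ?_⟩
    · rw [Finsupp.single_eq_same]; exact h.1 ho
    · ext μ
      rw [Set.Finite.mem_toFinset, Finset.mem_singleton]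
      constructor
      · rintro ⟨h1, h2⟩
        rw [cls_oneN] at h1
        refine Alph.Word.ext (Finsupp.ext fun a => ?_)
        rw [show a = () from rfl, h1]
        exact (Finsupp.single_eq_same).symm
      · rintro rfl
        refine ⟨?_, ?_⟩
        · rw [cls_oneN]; exact Finsupp.single_eq_same
        · rw [deg_oneN]
          refine Eq.trans ?_ h.2.symm
          congr 2
          exact Finsupp.single_eq_same
  · rw [Alph.num, Finset.card_eq_zero, Set.Finite.toFinset_eq_empty,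
      Set.eq_empty_iff_forall_notMem]
    rintro μ ⟨h1, h2⟩
    rw [cls_oneN] at h1
    rw [deg_oneN, h1] at h2
    exact h ⟨fun ho => h1 ▸ μ.odd_le () ho, h2.symm⟩

theorem gen_oneN (e : ℤ) (o : Bool) (n : ℕ) :
    (oneN e o).gen n = if (o = true → n ≤ 1) then HahnSeries.single ((n : ℤ) * e) 1 else 0 := by
  ext N
  rw [Alph.coeff_gen, num_oneN]
  by_cases h : (o = true → n ≤ 1)
  · rw [if_pos h]
    by_cases hN : N = n * e
    · rw [if_pos ⟨h, hN⟩, hN, HahnSeries.coeff_single_same, Nat.cast_one]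
    · rw [if_neg fun h' => hN h'.2, HahnSeries.coeff_single_of_ne hN, Nat.cast_zero]
  · rw [if_neg h, if_neg fun h' => h h'.1, HahnSeries.coeff_zero, Nat.cast_zero]

/-- `v^e` in `ℚ((v))`. -/
abbrev vL (e : ℤ) : KL := HahnSeries.single e 1

theorem vL_add (a b : ℤ) : vL (a + b) = vL a * vL b := by
  rw [HahnSeries.single_mul_single, one_mul]

theorem vL_zero : vL 0 = 1 := rfl

theorem genP_one_odd (e : ℤ) : genP (oneN e true) = 1 + PowerSeries.C (vL e) * PowerSeries.X := by
  ext1 n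
  rw [coeff_genP, gen_oneN]
  rcases n with _ | _ | n
  · simp
  · simp [PowerSeries.coeff_succ_mul_X]
  · rw [if_neg (by simp)]
    rw [map_add, PowerSeries.coeff_one, PowerSeries.coeff_succ_mul_X, PowerSeries.coeff_C]
    simp

theorem genP_one_even (e : ℤ) :
    (1 - PowerSeries.C (vL e) * PowerSeries.X) * genP (oneN e false) = 1 := by
  have h : ∀ n, (oneN e false).gen n = vL ((n : ℤ) * e) := fun n => by
    rw [gen_oneN, if_pos (by simp)]
  ext1 n
  rw [sub_mul, one_mul, map_sub, coeff_genP, mul_assoc, PowerSeries.coeff_C_mul]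
  rcases n with _ | n
  · rw [PowerSeries.coeff_zero_X_mul, h]; simp
  · rw [PowerSeries.coeff_succ_X_mul, coeff_genP, h, h, ← vL_add, PowerSeries.coeff_one,
      if_neg (Nat.succ_ne_zero n)]
    rw [sub_eq_zero]
    congr 1
    push_cast; ring

/-- `ray e = {first letter} ⊔ ray (e + 2)`. -/
theorem genP_rayN_succ (e : ℤ) (o : Bool) :
    genP (rayN e o) = genP (oneN e o) * genP (rayN (e + 2) o) := by
  rw [← genP_sum]
  symm
  refine genP_congr (S := (oneN e o).sum (rayN (e + 2) o)) (T := rayN e o)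
    (⟨fun x => Sum.elim (fun _ => 0) (fun j => j + 1) x,
      fun j => match j with
        | 0 => Sum.inl ()
        | j + 1 => Sum.inr j, ?_, ?_⟩ : Unit ⊕ ℕ ≃ ℕ) ?_ ?_ ?_
  · rintro (a | j) <;> rfl
  · rintro (_ | j) <;> rfl
  · rintro (a | j) <;> rfl
  · rintro (a | j)
    · show e + 2 * ((0 : ℕ) : ℤ) = e
      push_cast; ring
    · show e + 2 * ((j + 1 : ℕ) : ℤ) = e + 2 + 2 * j
      push_cast; ring
  · rintro (a | j) <;> exact Iff.rfl

theorem gen_rayN_shift (e : ℤ) (o : Bool) (n : ℕ) :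
    (rayN (e + 2) o).gen n = vL (2 * n) * (rayN e o).gen n := by
  refine Alph.gen_shift (S := rayN e o) (T := rayN (e + 2) o) (Equiv.refl ℕ) (fun _ => rfl)
    (fun _ => Iff.rfl) n _ fun μ hμ => ?_
  have h1 : ((μ.m.sum fun _ n => n : ℕ) : ℤ) = n := by
    rw [← hμ]
    congr 1
    exact Finsupp.sum_congr fun a _ => (mul_one _).symm
  show (μ.m.sum fun a n => (n : ℤ) * (e + 2 + 2 * (a : ℤ))) =
    (μ.m.sum fun a n => (n : ℤ) * (e + 2 * (a : ℤ))) + 2 * (n : ℤ)
  rw [← h1]
  unfold Finsupp.sum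
  push_cast
  rw [mul_sum, ← sum_add_distrib]
  exact sum_congr rfl fun a _ => by ring

theorem genP_rayN_shift (e : ℤ) (o : Bool) :
    genP (rayN (e + 2) o) = PowerSeries.rescale (vL 2) (genP (rayN e o)) := by
  ext1 n
  rw [coeff_genP, gen_rayN_shift, PowerSeries.coeff_rescale, coeff_genP]
  congr 1
  rw [HahnSeries.single_pow, one_pow]
  congr 1
  simp [mul_comm]

theorem genP_zero (S : NAlph) : PowerSeries.coeff 0 (genP S) = 1 := by
  rw [coeff_genP, Alph.gen_zero]

theorem gen_rayN_odd_succ (e : ℤ) (i : ℕ) :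
    (rayN e true).gen (i + 1) * (1 - vL (2 * (i + 1))) =
      vL (e + 2 * i) * (rayN e true).gen i := by
  have h := congrArg (PowerSeries.coeff (i + 1)) (genP_rayN_succ e true)
  rw [genP_one_odd, add_mul, one_mul, mul_assoc, map_add, PowerSeries.coeff_C_mul,
    PowerSeries.coeff_succ_X_mul, coeff_genP, coeff_genP, coeff_genP, gen_rayN_shift,
    gen_rayN_shift] at h
  have h2 : vL (e + 2 * i) = vL e * vL (2 * (i : ℤ)) := vL_add _ _
  push_cast at h
  linear_combination h - (rayN e true).gen i * h2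

theorem gen_rayN_even_succ (e : ℤ) (i : ℕ) :
    (rayN e false).gen (i + 1) * (1 - vL (2 * (i + 1))) = vL e * (rayN e false).gen i := by
  have h0 := congrArg (fun x => (1 - PowerSeries.C (vL e) * PowerSeries.X) * x)
    (genP_rayN_succ e false)
  rw [← mul_assoc, genP_one_even, one_mul] at h0
  have h := congrArg (PowerSeries.coeff (i + 1)) h0
  rw [sub_mul, one_mul, mul_assoc, map_sub, PowerSeries.coeff_C_mul,
    PowerSeries.coeff_succ_X_mul, coeff_genP, coeff_genP, coeff_genP, gen_rayN_shift] at h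
  push_cast at h
  linear_combination h

theorem one_sub_vL_ne_zero (i : ℕ) : (1 - vL (2 * ((i : ℤ) + 1)) : KL) ≠ 0 := by
  intro h
  have h1 := congrArg (fun x : KL => x.coeff 0) h
  simp only [HahnSeries.coeff_sub, HahnSeries.coeff_zero] at h1
  rw [HahnSeries.coeff_single_of_ne (by omega : (0 : ℤ) ≠ 2 * ((i : ℤ) + 1))] at h1
  simp at h1

/-- The coefficients of `E(v^j T)` for a letter of degree `e` and parity `o`, `v = 1/u`. -/
def tgt (e : ℤ) (o : Bool) (i : ℕ) : K :=
  epsCoeff (!o) i * v ^ ((if o then 1 - e else -e) * (i : ℤ))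

variable (φ : K →+* KL)

theorem map_v_zpow (hφ : φ v = vL (-1)) (n : ℤ) : φ (v ^ n) = vL (-n) := by
  rw [map_zpow₀, hφ]
  have h : (vL (-1)) = (vL 1)⁻¹ := eq_inv_of_mul_eq_one_left (by rw [← vL_add]; rfl)
  rw [h, inv_zpow', ← RatFunc.single_zpow]

theorem gen_rayN_eq (hφ : φ v = vL (-1)) (e : ℤ) (o : Bool) (i : ℕ) :
    (rayN e o).gen i = φ (tgt e o i) := by
  induction i with
  | zero =>
    rw [Alph.gen_zero]
    cases o <;> simp [tgt, epsCoeff, psi]
  | succ i ih =>
    have h3 := one_sub_vL_ne_zero i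
    refine mul_right_cancel₀ h3 ?_
    have hA : φ (v ^ (2 * (i + 1))) = vL (-(2 * ((i : ℤ) + 1))) := by
      rw [← zpow_natCast, map_v_zpow φ hφ]
      push_cast
      rfl
    have h4 : (1 - vL (2 * ((i : ℤ) + 1))) =
        φ ((v ^ (2 * (i + 1)) - 1) * v ^ (-(2 * ((i : ℤ) + 1)))) := by
      rw [map_mul, map_v_zpow φ hφ, map_sub, map_one, hA, sub_mul, ← vL_add, neg_neg, one_mul,
        neg_add_cancel, vL_zero]
    have hv : (v ^ (2 * (i + 1)) - 1 : K) ≠ 0 := by
      intro h5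
      rw [h5, zero_mul, map_zero] at h4
      exact h3 h4
    have hz : (v : K) ≠ 0 := RatFunc.X_ne_zero
    cases o
    · rw [gen_rayN_even_succ, ih, h4, ← map_mul]
      have h6 : vL e = φ (v ^ (-e)) := by rw [map_v_zpow φ hφ, neg_neg]
      rw [h6, ← map_mul]
      congr 1
      unfold tgt epsCoeff
      simp only [Bool.not_false, if_true, Bool.false_eq_true, if_false]
      rw [prod_range_succ]
      have h7 : v ^ (2 * (i + 1)) / (v ^ (2 * (i + 1)) - 1) * (v ^ (2 * (i + 1)) - 1) =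
          v ^ (2 * (i + 1)) := div_mul_cancel₀ _ hv
      have h8 : v ^ (2 * (i + 1)) * v ^ (-(2 * ((i : ℤ) + 1))) = (1 : K) := by
        rw [← zpow_natCast, ← zpow_add₀ hz]
        push_cast
        rw [add_neg_cancel, zpow_zero]
      have h9 : (v : K) ^ (-e * ((i + 1 : ℕ) : ℤ)) = v ^ (-e) * v ^ (-e * (i : ℤ)) := by
        rw [← zpow_add₀ hz]
        congr 1
        push_cast; ring
      rw [h9]
      linear_combination
        -(∏ x ∈ range i, v ^ (2 * (x + 1)) / (v ^ (2 * (x + 1)) - 1)) * v ^ (-e) *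
          v ^ (-e * (i : ℤ)) * (v ^ (-(2 * ((i : ℤ) + 1))) * h7 + h8)
    · rw [gen_rayN_odd_succ, ih, h4, ← map_mul]
      have h6 : vL (e + 2 * i) = φ (v ^ (-(e + 2 * (i : ℤ)))) := by
        rw [map_v_zpow φ hφ, neg_neg]
      rw [h6, ← map_mul]
      congr 1
      unfold tgt epsCoeff psi
      simp only [Bool.not_true, Bool.false_eq_true, if_false, if_true]
      rw [prod_range_succ]
      have h7 : v / (v ^ (2 * (i + 1)) - 1) * (v ^ (2 * (i + 1)) - 1) = v := div_mul_cancel₀ _ hv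
      have h9 : (v : K) ^ ((1 - e) * ((i + 1 : ℕ) : ℤ)) * (v * v ^ (-(2 * ((i : ℤ) + 1)))) =
          v ^ (-(e + 2 * (i : ℤ))) * v ^ ((1 - e) * (i : ℤ)) := by
        rw [← zpow_one_add₀ hz, ← zpow_add₀ hz, ← zpow_add₀ hz]
        congr 1
        push_cast; ring
      linear_combination
        -(∏ x ∈ range i, v / (v ^ (2 * (x + 1)) - 1)) *
          (v ^ ((1 - e) * ((i + 1 : ℕ) : ℤ)) * v ^ (-(2 * ((i : ℤ) + 1))) * h7 + h9)

end

end Vale.Agent.P066.H347
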