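import Vale.Agent.P066.H347.Words
import Vale.Agent.P066.Lab.LSW.Defs

/-!
# Counting half of [W4]

`GM L d m`: multisets of letters `(y, m)` without repeated odd letters, with sum of classes `d` and
degree `m`.  `lsout_of_GM`: if `hR0 a θ d m = #GM L d m` for all `d`, `m` then `LSout`.
-/

set_option autoImplicit false

open Finset MvPolynomial

namespace Vale.Agent.P066.Lab.LSW

open Vale.Agent.P066 Vale.Agent.P066.Lab Vale.Agent.P066.Theta
open Vale.Agent.P066.Theta.H422 (Alt TP mem_TP mem_Alt)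

noncomputable section

variable {n : ℕ} {a : Fin n → Fin n → ℕ} {θ : Fin n → ℤ} (L : Letters a θ)

/-! ### the alphabet -/

/-- basis elements with their class -/
abbrev YA : Type := Σ d : Fin n →₀ ℕ, L.Y d

theorem finite_YA (D : ℕ) : {y : YA L | Theta.deg y.1 ≤ D}.Finite := by
  classical
  have h1 : {d : Fin n →₀ ℕ | Theta.deg d ≤ D}.Finite := by
    refine (Set.finite_Iic (Finsupp.equivFunOnFinite.symm fun _ => D : Fin n →₀ ℕ)).subset ?_
    intro d hd i
    exact (single_le_sum (f := fun i => d i) (fun _ _ => Nat.zero_le _) (mem_univ i)).trans hd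
  refine (h1.biUnion (t := fun d => Set.range fun y : L.Y d => (⟨d, y⟩ : YA L)) fun d _ => ?_).subset
    ?_
  · have := L.fin d
    exact Set.finite_range _
  · rintro ⟨d, y⟩ hy
    rw [Set.mem_iUnion₂]
    exact ⟨d, hy, y, rfl⟩

/-- the alphabet of the letters -/
abbrev TL : H347.MAlph n where
  A := YA L
  k y := y.1
  e y := 2 * (L.dg y.2 : ℤ) + cq a y.1
  odd y := Odd' a y.1
  k_pos y := by
    rw [Nat.pos_iff_ne_zero]
    intro h0
    refine L.ne _ y.2 (Finsupp.ext fun i => ?_)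
    exact (sum_eq_zero_iff.1 (show (∑ i, y.1 i) = 0 from h0)) i (mem_univ i)
  fin m _ := (finite_YA L m).subset fun _ hy => hy.1

/-- loop letters are the letters -/
def ltrEquiv : (YA L × ℕ) ≃ Ltr L where
  toFun x := ⟨x.1.1, (x.1.2, x.2)⟩
  invFun l := (⟨l.1, l.2.1⟩, l.2.2)
  left_inv _ := rfl
  right_inv _ := rfl

variable {L}

/-- twice the degree of a letter plus `c(d)` -/
def eL (l : Ltr L) : ℤ := 2 * ((L.dg l.2.1 + ml l : ℕ) : ℤ) + cq a (cls l)

/-- no odd letter is repeated -/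
def GoodM (M : Multiset (Ltr L)) : Prop := ∀ l, Odd' a (cls l) → ∀ M', M ≠ l ::ₘ l ::ₘ M'

theorem goodM_iff_count [DecidableEq (Ltr L)] (M : Multiset (Ltr L)) :
    GoodM M ↔ ∀ l, Odd' a (cls l) → M.count l ≤ 1 := by
  refine forall₂_congr fun l _ => ?_
  constructor
  · intro h
    by_contra h1
    have h2 : 2 ≤ M.count l := by omega
    obtain ⟨M', hM'⟩ := Multiset.le_iff_exists_add.1 (Multiset.le_count_iff_replicate_le.1 h2)
    refine h M' ?_
    rw [hM', Multiset.replicate_succ, Multiset.replicate_one, Multiset.cons_add,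
      Multiset.singleton_add]
  · rintro h M' rfl
    rw [Multiset.count_cons_self, Multiset.count_cons_self] at h
    omega

variable (L)

/-- good multisets of letters of class `d` and degree `m` -/
def GM (d : Fin n →₀ ℕ) (m : ℕ) : Type :=
  {M : Multiset (Ltr L) // GoodM M ∧ (M.map cls).sum = d ∧
    (M.map eL).sum = 2 * (m : ℤ) + cq a d}

variable {L}

/-- Multisets along a bijection. -/
def mapE {α β : Type*} (e : α ≃ β) : Multiset α ≃ Multiset β where
  toFun := Multiset.map e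
  invFun := Multiset.map e.symm
  left_inv s := by simp [Multiset.map_map]
  right_inv s := by simp [Multiset.map_map]

theorem card_GM (d : Fin n →₀ ℕ) (m : ℕ) :
    (TL L).loop.num d (2 * (m : ℤ) + cq a d) = Nat.card (GM L d m) := by
  classical
  rw [H347.Alph.num_eq_card_multiset]
  refine Nat.card_congr (Equiv.subtypeEquiv (mapE (ltrEquiv L)) fun s => ?_)
  unfold H347.Alph.IsWM
  refine and_congr ?_ (and_congr ?_ ?_)
  · rw [goodM_iff_count, (ltrEquiv L).forall_congr_left]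
    refine forall_congr' fun l => ?_
    refine imp_congr Iff.rfl ?_
    show _ ↔ (s.map (ltrEquiv L)).count l ≤ 1
    rw [show (s.map (ltrEquiv L)).count l = s.count ((ltrEquiv L).symm l) by
      conv_lhs => rw [← (ltrEquiv L).apply_symm_apply l]
      exact Multiset.count_map_eq_count' _ _ (ltrEquiv L).injective _]
  · show _ ↔ ((s.map (ltrEquiv L)).map cls).sum = d
    rw [Multiset.map_map]
    exact Iff.rfl
  · show _ ↔ ((s.map (ltrEquiv L)).map eL).sum = _
    rw [Multiset.map_map]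
    have : (s.map (TL L).loop.e) = s.map (eL ∘ ltrEquiv L) := by
      refine Multiset.map_congr rfl fun x _ => ?_
      show 2 * (L.dg x.1.2 : ℤ) + cq a x.1.1 + 2 * (x.2 : ℤ) =
        2 * ((L.dg x.1.2 + x.2 : ℕ) : ℤ) + cq a x.1.1
      push_cast
      ring
    rw [this]

/-- **Counting half of W4.** -/
theorem lsout_of_GM
    (H : ∀ (n : ℕ) (a : Fin n → Fin n → ℕ) (θ : Fin n → ℤ), SymD a θ →
      ∃ L : Letters a θ, ∀ d : Fin n →₀ ℕ, Theta.wt θ d = 0 → ∀ m : ℕ,
        hR0 a θ d m = Nat.card (GM L d m)) : LSout := by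
  classical
  intro n a θ h
  obtain ⟨L, hL⟩ := H n a θ h
  refine ⟨TL L, fun y => L.wt _ y.2, finite_YA L, fun d hd => ⟨fun m => ?_, fun N hN => ?_⟩⟩
  · rw [card_GM, hL d hd m]
  · rw [H347.Alph.num_eq_card_multiset]
    have : IsEmpty {s : Multiset (YA L × ℕ) // (TL L).loop.IsWM d N s} := by
      refine ⟨fun s => ?_⟩
      obtain ⟨s, -, h3, h4⟩ := s
      obtain ⟨w, rfl⟩ := Quot.exists_rep s
      have h5 := H347.sum_e_eq h (TL L) (fun y => L.dg y.2) (fun y => L.wt _ y.2)
        (fun _ => rfl) w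
      refine hN (H347.degL a (TL L) (fun y => L.dg y.2) w) ?_
      rw [← h4, ← h3]
      exact h5
    exact Nat.card_of_isEmpty

/-! ### words and multisets -/

theorem msW_eq_ofFn {r : ℕ} (w : Fin r → Ltr L) : msW w = (List.ofFn w : Multiset (Ltr L)) :=
  Fin.univ_val_map w

theorem exists_word (M : Multiset (Ltr L)) : ∃ (r : ℕ) (w : Fin r → Ltr L), msW w = M := by
  obtain ⟨l, rfl⟩ := Quot.exists_rep M
  exact ⟨l.length, l.get, by rw [msW_eq_ofFn, List.ofFn_get]; rfl⟩

theorem card_msW {r : ℕ} (w : Fin r → Ltr L) : Multiset.card (msW w) = r := by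
  rw [msW_eq_ofFn, Multiset.coe_card, List.length_ofFn]

theorem map_msW {r : ℕ} (w : Fin r → Ltr L) {N : Type*} [AddCommMonoid N] (f : Ltr L → N) :
    ((msW w).map f).sum = ∑ j, f (w j) := by
  rw [msW, Multiset.map_map]
  rfl

theorem msW_comp_perm {r : ℕ} (w : Fin r → Ltr L) (τ : Equiv.Perm (Fin r)) :
    msW (w ∘ τ) = msW w := by
  unfold msW
  rw [← Multiset.map_map, ← Equiv.coe_toEmbedding, ← Finset.map_val, Finset.map_univ_equiv]

theorem exists_perm_of_msW {r : ℕ} {w w' : Fin r → Ltr L} (h : msW w = msW w') :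
    ∃ τ : Equiv.Perm (Fin r), w' = w ∘ τ := by
  classical
  have hc : ∀ z, Fintype.card {p // w' p = z} = Fintype.card {p // w p = z} := by
    intro z
    rw [Fintype.card_subtype, Fintype.card_subtype]
    have h1 := congrArg (Multiset.count z) h
    rw [msW, msW, Multiset.count_map, Multiset.count_map] at h1
    rw [Finset.card_def, Finset.card_def, Finset.filter_val, Finset.filter_val]
    simpa only [eq_comm] using h1.symm
  refine ⟨Equiv.ofFiberEquiv (f := w') (g := w) fun z => Fintype.equivOfCardEq (hc z),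
    funext fun p => ?_⟩
  exact (Equiv.ofFiberEquiv_map _ _).symm

theorem good_iff_goodM {r : ℕ} (w : Fin r → Ltr L) : Good w ↔ GoodM (msW w) := by
  classical
  rw [goodM_iff_count]
  constructor
  · intro h l hl
    by_contra h1
    rw [msW, Multiset.count_map, ← Finset.filter_val, ← Finset.card_def, not_le,
      Finset.one_lt_card] at h1
    obtain ⟨i, hi, j, hj, hij⟩ := h1
    rw [mem_filter] at hi hj
    refine h i j hij (hi.2.symm.trans hj.2) ?_
    rw [← hi.2]
    exact hl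
  · intro h i j hij hw hodd
    have h1 := h (w i) hodd
    rw [msW, Multiset.count_map, ← Finset.filter_val, ← Finset.card_def] at h1
    refine absurd h1 (not_le.2 (Finset.one_lt_card.2 ⟨i, ?_, j, ?_, hij⟩))
    · exact mem_filter.2 ⟨mem_univ _, rfl⟩
    · exact mem_filter.2 ⟨mem_univ _, hw⟩

/-! ### the particle set of a word -/

theorem exists_TB {r : ℕ} (D : Fin r → Fin n →₀ ℕ) {d : Fin n →₀ ℕ} (h : ∑ j, D j = d) :
    ∃ e : SW D ≃ Pt d, TB (tyW D) Sigma.fst e := by
  classical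
  have hd : ∀ i, ∑ j, D j i = d i := fun i => by
    rw [← h, Finsupp.finsetSum_apply]
  let e1 : SW D ≃ Σ i : Fin n, Σ j : Fin r, Fin (D j i) :=
    ⟨fun s => ⟨s.2.1, ⟨s.1, s.2.2⟩⟩, fun s => ⟨s.2.1, ⟨s.1, s.2.2⟩⟩, fun _ => rfl, fun _ => rfl⟩
  let e2 : (Σ i : Fin n, Σ j : Fin r, Fin (D j i)) ≃ Pt d :=
    Equiv.sigmaCongrRight fun i => finSigmaFinEquiv.trans (finCongr (hd i))
  exact ⟨e1.trans e2, fun _ => rfl⟩

theorem sum_eq_of_TB {r : ℕ} (D : Fin r → Fin n →₀ ℕ) {d : Fin n →₀ ℕ} (e : SW D ≃ Pt d)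
    (he : TB (tyW D) Sigma.fst e) : ∑ j, D j = d := by
  classical
  refine Finsupp.ext fun i => ?_
  rw [Finsupp.finsetSum_apply]
  have h1 : Fintype.card {s : SW D // tyW D s = i} = Fintype.card {s : Pt d // s.1 = i} :=
    Fintype.card_congr (e.subtypeEquiv fun s => by rw [he s])
  have h2 : Fintype.card {s : Pt d // s.1 = i} = d i :=
    (Fintype.card_congr (Equiv.sigmaSubtype (β := fun i => Fin (d i)) i)).trans (Fintype.card_fin _)
  have h3 : Fintype.card {s : SW D // tyW D s = i} = ∑ j, D j i := by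
    have e3 : {s : SW D // tyW D s = i} ≃ Σ j : Fin r, Fin (D j i) :=
      ⟨fun s => ⟨s.1.1, Fin.cast (congrArg (fun i => D s.1.1 i) s.2) s.1.2.2⟩, fun s => ⟨⟨s.1, ⟨i, s.2⟩⟩, rfl⟩,
        fun ⟨⟨j, ⟨i', k⟩⟩, hs⟩ => by subst hs; rfl, fun _ => rfl⟩
    rw [Fintype.card_congr e3, Fintype.card_sigma]
    exact sum_congr rfl fun j _ => Fintype.card_fin _
  rw [← h3, h1, h2]

/-! ### the degree of a word -/

theorem sum_Pt (d : Fin n →₀ ℕ) (f : Fin n → ℕ) : ∑ x : Pt d, f x.1 = ∑ i, d i * f i := by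
  rw [Fintype.sum_sigma]
  exact sum_congr rfl fun i _ => by simp

theorem sum_Pt_Pt (a : Fin n → Fin n → ℕ) (d e : Fin n →₀ ℕ) :
    ∑ x : Pt d, ∑ y : Pt e, a x.1 y.1 = arD a d e := by
  unfold arD
  rw [sum_Pt d fun i => ∑ y : Pt e, a i y.1]
  refine sum_congr rfl fun i _ => ?_
  rw [sum_Pt e fun j => a i j, mul_sum]
  exact sum_congr rfl fun j _ => by ring

/-- `C = ∑_{i < j} a(D_i, D_j)` -/
def crossW (a : Fin n → Fin n → ℕ) {r : ℕ} (D : Fin r → Fin n →₀ ℕ) : ℕ :=
  ∑ i, ∑ j, if i < j then arD a (D i) (D j) else 0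

theorem CC_cW (a : Fin n → Fin n → ℕ) {r : ℕ} (D : Fin r → Fin n →₀ ℕ) :
    CC (aT a (tyW D)) (cW D) = (crossW a D : ℤ) := by
  classical
  unfold CC crossW
  rw [Finset.sum_filter]
  have h1 : ∀ p : SW D × SW D, (if cW D p.1 < cW D p.2 then ((aT a (tyW D) p.1 p.2 : ℕ) : ℤ) else 0)
      = ((if cW D p.1 < cW D p.2 then aT a (tyW D) p.1 p.2 else 0 : ℕ) : ℤ) := fun p => by
    split_ifs <;> simp
  rw [sum_congr rfl fun p _ => h1 p, ← Nat.cast_sum]
  congr 1
  rw [Fintype.sum_prod_type, Fintype.sum_sigma]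
  refine sum_congr rfl fun i _ => ?_
  have h2 : ∀ x : Pt (D i), (∑ y : SW D, if cW D ⟨i, x⟩ < cW D y then aT a (tyW D) ⟨i, x⟩ y else 0) =
      ∑ j, ∑ y : Pt (D j), if i < j then a x.1 y.1 else 0 := fun x => by
    rw [Fintype.sum_sigma]
    rfl
  rw [sum_congr rfl fun x _ => h2 x, sum_comm]
  refine sum_congr rfl fun j _ => ?_
  by_cases h : i < j
  · simp only [if_pos h]
    exact sum_Pt_Pt a (D i) (D j)
  · simp only [if_neg h]
    simp

/-- degree of a word -/
def degW (a : Fin n → Fin n → ℕ) {L : Letters a θ} {r : ℕ} (w : Fin r → Ltr L) : ℕ :=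
  crossW a (clsW w) + ∑ j, (L.dg (w j).2.1 + ml (w j))

theorem cq_sum (h : SymD a θ) {r : ℕ} (D : Fin r → Fin n →₀ ℕ)
    (hD : ∀ j, Theta.wt θ (D j) = 0) :
    ∑ j, cq a (D j) = cq a (∑ j, D j) + 2 * (crossW a D : ℤ) := by
  have h1 := H347.cq_list h (List.ofFn D) (fun d hd => by
    obtain ⟨j, rfl⟩ := (List.mem_ofFn' _ _).1 hd
    exact hD j)
  rw [List.map_ofFn, List.sum_ofFn, List.sum_ofFn] at h1
  have h2 : ∀ {r : ℕ} (D : Fin r → Fin n →₀ ℕ), H347.crossL a (List.ofFn D) = crossW a D := by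
    intro r
    induction r with
    | zero => intro D; simp [H347.crossL, crossW]
    | succ r ih =>
      intro D
      rw [List.ofFn_succ]
      show ((List.ofFn fun i => D i.succ).map (arD a (D 0))).sum +
        H347.crossL a (List.ofFn fun i => D i.succ) = crossW a D
      rw [ih, List.map_ofFn, List.sum_ofFn]
      unfold crossW
      rw [Fin.sum_univ_succ, Fin.sum_univ_succ]
      congr 1
      · rw [if_neg (lt_irrefl _), zero_add]
        exact sum_congr rfl fun j _ => by rw [if_pos (Fin.succ_pos j)]; rfl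
      · refine sum_congr rfl fun i _ => ?_
        rw [Fin.sum_univ_succ, if_neg (Fin.not_lt_zero _), zero_add]
        exact sum_congr rfl fun j _ => by simp only [Fin.succ_lt_succ_iff]
  rw [← h2]
  exact h1

theorem sum_eL (h : SymD a θ) {r : ℕ} (w : Fin r → Ltr L) :
    ∑ j, eL (w j) = 2 * (degW a w : ℤ) + cq a (∑ j, cls (w j)) := by
  have h1 := cq_sum h (fun j => cls (w j)) fun j => L.wt _ (w j).2.1
  unfold eL degW
  rw [sum_add_distrib, h1]
  push_cast
  rw [← mul_sum]
  ring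

end

end Vale.Agent.P066.Lab.LSW
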