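import Vale.Agent.P066.Lab.QT0

/-!
# Words as multisets and as sorted lists; the degree of a word

`num_eq_card_multiset`, `num_eq_card_list`: the words of an alphabet are the multisets (sorted lists)
of letters in which the odd letters occur at most once.

`lsout_of`: the interface `LSout` follows from the count of the sorted lists by the degree
`∑ (D y + j) + ∑_{i < j} a(d_i, d_j)`.
-/

set_option autoImplicit false

open Finset

namespace Vale.Agent.P066.H347

open Vale.Agent.P066.Theta Vale.Agent.P066.Lab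

noncomputable section

namespace Alph

variable {M : Type*} [AddCommMonoid M] {sz : M →+ ℕ} (S : Alph M sz)

theorem num_eq_natCard (m : M) (N : ℤ) :
    S.num m N = Nat.card {μ : S.Word // S.cls μ = m ∧ S.deg μ = N} :=
  (Nat.card_eq_card_finite_toFinset (S.finite_eq m N)).symm

section Multiset

variable [DecidableEq S.A]

/-- Words are multisets of letters in which the odd letters occur at most once. -/
def wordEquivMultiset : S.Word ≃ {s : Multiset S.A // ∀ a, S.odd a → s.count a ≤ 1} where
  toFun μ := ⟨Finsupp.toMultiset μ.m, fun a h => by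
    rw [Finsupp.count_toMultiset]; exact μ.odd_le a h⟩
  invFun s := ⟨Multiset.toFinsupp s.1, fun a h => by
    rw [Multiset.toFinsupp_apply]; exact s.2 a h⟩
  left_inv μ := Word.ext (Finsupp.toMultiset_toFinsupp _)
  right_inv s := Subtype.ext (Multiset.toFinsupp_toMultiset _)

theorem sum_map_toMultiset {α N : Type*} [AddCommMonoid N] (f : α → N) (m : α →₀ ℕ) :
    ((Finsupp.toMultiset m).map f).sum = m.sum fun a n => n • f a := by
  classical
  induction m using Finsupp.induction_linear with
  | zero => simp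
  | add x y hx hy =>
    rw [map_add, Multiset.map_add, Multiset.sum_add, hx, hy]
    exact (Finsupp.sum_add_index' (h := fun a n => n • f a) (fun a => zero_smul ℕ (f a))
      (fun a i j => add_smul i j (f a))).symm
  | single a n =>
    rw [Finsupp.toMultiset_single, Multiset.map_nsmul, Multiset.sum_nsmul, Multiset.map_singleton,
      Multiset.sum_singleton]
    exact (Finsupp.sum_single_index (h := fun a n => n • f a) (zero_smul ℕ (f a))).symm

theorem cls_eq_multiset (μ : S.Word) : S.cls μ = ((S.wordEquivMultiset μ).1.map S.k).sum :=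
  (sum_map_toMultiset S.k μ.m).symm

theorem deg_eq_multiset (μ : S.Word) : S.deg μ = ((S.wordEquivMultiset μ).1.map S.e).sum := by
  refine Eq.trans ?_ (sum_map_toMultiset S.e μ.m).symm
  exact Finsupp.sum_congr fun a _ => (nsmul_eq_mul _ _).symm

/-- A multiset of class `m` and degree `N`. -/
def IsWM (m : M) (N : ℤ) (s : Multiset S.A) : Prop :=
  (∀ a, S.odd a → s.count a ≤ 1) ∧ (s.map S.k).sum = m ∧ (s.map S.e).sum = N

/-- Words of class `m` and degree `N` as multisets. -/
def wordEquivWM (m : M) (N : ℤ) :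
    {μ : S.Word // S.cls μ = m ∧ S.deg μ = N} ≃ {s : Multiset S.A // S.IsWM m N s} where
  toFun μ := ⟨(S.wordEquivMultiset μ.1).1, (S.wordEquivMultiset μ.1).2,
    (S.cls_eq_multiset μ.1).symm.trans μ.2.1, (S.deg_eq_multiset μ.1).symm.trans μ.2.2⟩
  invFun s := ⟨S.wordEquivMultiset.symm ⟨s.1, s.2.1⟩, by
    rw [cls_eq_multiset, Equiv.apply_symm_apply]
    exact s.2.2.1, by
    rw [deg_eq_multiset, Equiv.apply_symm_apply]
    exact s.2.2.2⟩
  left_inv μ := Subtype.ext (S.wordEquivMultiset.symm_apply_apply μ.1)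
  right_inv s := by
    refine Subtype.ext ?_
    show (S.wordEquivMultiset (S.wordEquivMultiset.symm ⟨s.1, s.2.1⟩)).1 = s.1
    rw [Equiv.apply_symm_apply]

theorem num_eq_card_multiset (m : M) (N : ℤ) :
    S.num m N = Nat.card {s : Multiset S.A // S.IsWM m N s} := by
  rw [num_eq_natCard]
  exact Nat.card_congr (S.wordEquivWM m N)

end Multiset

section List

/-- Multisets are sorted lists. -/
def multisetEquivSorted {α : Type*} [LinearOrder α] (P : Multiset α → Prop) :
    {s : Multiset α // P s} ≃ {w : List α // w.Pairwise (· ≤ ·) ∧ P (w : Multiset α)} where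
  toFun s := ⟨s.1.sort (· ≤ ·), Multiset.pairwise_sort _ _, by
    rw [Multiset.sort_eq]; exact s.2⟩
  invFun w := ⟨(w.1 : Multiset α), w.2.2⟩
  left_inv s := Subtype.ext (Multiset.sort_eq _ _)
  right_inv w := Subtype.ext (by
    show (w.1 : Multiset α).sort (· ≤ ·) = w.1
    refine List.Perm.eq_of_pairwise' (r := (· ≤ ·)) (Multiset.pairwise_sort _ _) w.2.1 ?_
    rw [← Multiset.coe_eq_coe, Multiset.sort_eq])

variable [LinearOrder S.A]

/-- The words of class `m` and degree `N` are the sorted lists of letters in which the odd letters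
occur at most once. -/
theorem num_eq_card_list (m : M) (N : ℤ) :
    S.num m N = Nat.card {w : List S.A // w.Pairwise (· ≤ ·) ∧ (∀ a, S.odd a → w.count a ≤ 1) ∧
      (w.map S.k).sum = m ∧ (w.map S.e).sum = N} := by
  rw [num_eq_card_multiset]
  refine (Nat.card_congr (multisetEquivSorted (S.IsWM m N))).trans
    (Nat.card_congr (Equiv.subtypeEquivRight fun w => ?_))
  unfold IsWM
  simp only [Multiset.coe_count, Multiset.map_coe, Multiset.sum_coe]

end List

end Alph

/-! ### the degree of a word -/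

section Degree

variable {n : ℕ} (a : Fin n → Fin n → ℕ) (θ : Fin n → ℤ)

/-- `∑_{i < j} a(d_i, d_j)` -/
def crossL : List (Fin n →₀ ℕ) → ℕ
  | [] => 0
  | d :: l => (l.map (arD a d)).sum + crossL l

theorem arD_zero_right (d : Fin n →₀ ℕ) : arD a d 0 = 0 := by simp [arD]

theorem arD_add_right (d e e' : Fin n →₀ ℕ) : arD a d (e + e') = arD a d e + arD a d e' := by
  simp only [arD, Finsupp.add_apply, mul_add, sum_add_distrib]

theorem arD_sum_right (d : Fin n →₀ ℕ) (l : List (Fin n →₀ ℕ)) :
    arD a d l.sum = (l.map (arD a d)).sum := by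
  induction l with
  | nil => exact arD_zero_right a d
  | cons e l ih => rw [List.sum_cons, arD_add_right, ih, List.map_cons, List.sum_cons]

theorem wt_add (x y : Fin n →₀ ℕ) : Theta.wt θ (x + y) = Theta.wt θ x + Theta.wt θ y := by
  simp only [Theta.wt, Finsupp.add_apply, Nat.cast_add, add_mul, sum_add_distrib]

theorem wt_list (l : List (Fin n →₀ ℕ)) (hl : ∀ d ∈ l, Theta.wt θ d = 0) :
    Theta.wt θ l.sum = 0 := by
  induction l with
  | nil => simp [Theta.wt]
  | cons e l ih =>
    rw [List.sum_cons, wt_add, hl e (List.mem_cons_self), zero_add]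
    exact ih fun d hd => hl d (List.mem_cons_of_mem _ hd)

variable {a θ}

theorem cq_add_of_sym (h : SymD a θ) {d e : Fin n →₀ ℕ} (hd : Theta.wt θ d = 0)
    (he : Theta.wt θ e = 0) : cq a d + cq a e = cq a (d + e) + 2 * (arD a d e : ℤ) := by
  have h1 := cq_add a d e
  have h2 : aq a d e = aq a e d := by rw [aq_eq_arD, aq_eq_arD, h d e hd he]
  rw [omega_Bq, h2, sub_self, sub_zero] at h1
  rw [← aq_eq_arD, h2, h1]

theorem cq_list (h : SymD a θ) (l : List (Fin n →₀ ℕ)) (hl : ∀ d ∈ l, Theta.wt θ d = 0) :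
    (l.map (cq a)).sum = cq a l.sum + 2 * (crossL a l : ℤ) := by
  induction l with
  | nil => simp [crossL, cq, Theta.deg]
  | cons e l ih =>
    have h1 : ∀ d ∈ l, Theta.wt θ d = 0 := fun d hd => hl d (List.mem_cons_of_mem _ hd)
    have h2 := cq_add_of_sym h (hl e List.mem_cons_self) (wt_list θ l h1)
    rw [List.map_cons, List.sum_cons, ih h1, List.sum_cons]
    rw [arD_sum_right] at h2
    show _ = cq a (e + l.sum) + 2 * (((l.map (arD a e)).sum + crossL a l : ℕ) : ℤ)
    push_cast at h2 ⊢
    linarith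

variable (a)

/-- The degree `∑ (D y + j) + ∑_{i < j} a(d_i, d_j)` of a word. -/
def degL (T : MAlph n) (D : T.A → ℕ) (w : List (T.A × ℕ)) : ℕ :=
  (w.map fun x => D x.1 + x.2).sum + crossL a (w.map fun x => T.k x.1)

variable {a}

theorem sum_e_eq (h : SymD a θ) (T : MAlph n) (D : T.A → ℕ) (hT : ∀ y, Theta.wt θ (T.k y) = 0)
    (hD : ∀ y, T.e y = 2 * (D y : ℤ) + cq a (T.k y)) (w : List (T.A × ℕ)) :
    (w.map T.loop.e).sum = 2 * (degL a T D w : ℤ) + cq a (w.map T.loop.k).sum := by
  have h1 := cq_list h (w.map T.loop.k) (by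
    intro d hd
    obtain ⟨x, _, rfl⟩ := List.mem_map.1 hd
    exact hT x.1)
  have h2 : (w.map T.loop.e).sum =
      2 * (((w.map fun x => D x.1 + x.2).sum : ℕ) : ℤ) + ((w.map T.loop.k).map (cq a)).sum := by
    clear h1
    induction w with
    | nil => simp
    | cons x w ih =>
      rw [List.map_cons, List.sum_cons, ih]
      show T.e x.1 + 2 * (x.2 : ℤ) + _ = _
      simp only [List.map_cons, List.sum_cons]
      rw [hD]
      push_cast
      ring
  rw [h2, h1]
  unfold degL
  push_cast
  ring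

end Degree

/-- The interface `LSout` from the count of the sorted lists of letters. -/
theorem lsout_of
    (H : ∀ (n : ℕ) (a : Fin n → Fin n → ℕ) (θ : Fin n → ℤ), SymD a θ →
      ∃ (T : MAlph n) (D : T.A → ℕ) (_ : LinearOrder (T.A × ℕ)),
        (∀ y, Theta.wt θ (T.k y) = 0) ∧
        (∀ y, T.e y = 2 * (D y : ℤ) + cq a (T.k y)) ∧
        (∀ D : ℕ, {y | Theta.deg (T.k y) ≤ D}.Finite) ∧
        ∀ d : Fin n →₀ ℕ, Theta.wt θ d = 0 → ∀ m : ℕ,
          hR0 a θ d m = Nat.card {w : List (T.A × ℕ) // w.Pairwise (· ≤ ·) ∧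
            (∀ x, T.odd x.1 → w.count x ≤ 1) ∧
            (w.map fun x => T.k x.1).sum = d ∧ degL a T D w = m}) : LSout := by
  intro n a θ h
  obtain ⟨T, D, hL, h1, h2, h3, h4⟩ := H n a θ h
  refine ⟨T, h1, h3, fun d hd => ⟨fun m => ?_, fun N hN => ?_⟩⟩
  · rw [Alph.num_eq_card_list, h4 d hd m]
    refine Nat.card_congr (Equiv.subtypeEquivRight fun w => ?_)
    have h5 := sum_e_eq h T D h1 h2 w
    constructor
    · rintro ⟨a1, a2, a3, a4⟩
      refine ⟨a1, a2, a3, ?_⟩
      rw [h5, a3] at a4
      omega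
    · rintro ⟨a1, a2, a3, a4⟩
      refine ⟨a1, a2, a3, ?_⟩
      rw [h5, a4]
      exact congrArg (fun z => 2 * (m : ℤ) + cq a z) a3
  · rw [Alph.num_eq_card_list]
    have : IsEmpty {w : List (T.A × ℕ) // w.Pairwise (· ≤ ·) ∧
        (∀ x, T.odd x.1 → w.count x ≤ 1) ∧ (w.map T.loop.k).sum = d ∧
        (w.map T.loop.e).sum = N} := by
      refine ⟨fun w => ?_⟩
      obtain ⟨w, a1, a2, a3, a4⟩ := w
      rw [sum_e_eq h T D h1 h2 w, a3] at a4
      exact hN _ a4.symm
    exact Nat.card_of_isEmpty

end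

end Vale.Agent.P066.H347
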